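import Vale.Agent.P216.V609.NDga

/-!
# P216-V, block FIN: the monomials in `a₁`, `a₂` are independent on the based loops

`PushAt D r ρ y q` is the output of the spectral sequence argument PUSH for one closed class `y` of
the base. `IndepN.step` is the induction step, `indepN_of_push` the final theorem.
-/

open Finset

namespace Vale.Agent.P216.V670

open V609

universe u v w

variable {k : Type*} [Field k]

/-! ### ordered polynomials in two elements -/

/-- `∑ a i j u ^ i v ^ j` -/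
def pev {A : Type*} [Ring A] [Algebra k A] (u v : A) (N : ℕ) (a : ℕ → ℕ → k) : A :=
  ∑ i ∈ range (N + 1), ∑ j ∈ range (N + 1), a i j • (u ^ i * v ^ j)

section pev

variable {A A' : Type*} [Ring A] [Algebra k A] [Ring A'] [Algebra k A']

theorem map_pev (φ : A →ₐ[k] A') (u v : A) (N : ℕ) (a : ℕ → ℕ → k) :
    φ (pev u v N a) = pev (φ u) (φ v) N a := by
  simp only [pev, map_sum, map_smul, map_mul, map_pow]

theorem pev_mono (u v : A) {N N' : ℕ} (h : N ≤ N') {a : ℕ → ℕ → k}
    (ha : ∀ i j, a i j ≠ 0 → i + j ≤ N) : pev u v N' a = pev u v N a := by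
  have hz : ∀ i j, N < i + j → a i j = 0 := fun i j hij => by
    by_contra h0
    exact absurd (ha i j h0) (by omega)
  have e2 : ∀ i, ∑ j ∈ range (N + 1), a i j • (u ^ i * v ^ j) =
      ∑ j ∈ range (N' + 1), a i j • (u ^ i * v ^ j) := fun i =>
    Finset.sum_subset (Finset.range_mono (by omega)) fun j _ hj => by
      rw [hz i j (by simp only [Finset.mem_range] at hj; omega), zero_smul]
  symm
  simp only [pev, e2]
  refine Finset.sum_subset (Finset.range_mono (by omega)) fun i _ hi => ?_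
  refine Finset.sum_eq_zero fun j _ => ?_
  rw [hz i j (by simp only [Finset.mem_range] at hi; omega), zero_smul]

theorem pev_deg {C : NDga k A} {u v : A} {p q n : ℕ} (hu : u ∈ C.deg p) (hv : v ∈ C.deg q)
    {N : ℕ} {a : ℕ → ℕ → k} (ha : ∀ i j, a i j ≠ 0 → i * p + j * q = n) :
    pev u v N a ∈ C.deg n := by
  refine Submodule.sum_mem _ fun i _ => Submodule.sum_mem _ fun j _ => ?_
  by_cases h : a i j = 0
  · rw [h, zero_smul]
    exact Submodule.zero_mem _
  · refine Submodule.smul_mem _ _ ?_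
    have h1 := C.mul_mem (C.pow_mem hu i) (C.pow_mem hv j)
    rwa [ha i j h] at h1

/-- the derivative with respect to the second variable -/
def der (a : ℕ → ℕ → k) (i j : ℕ) : k := ((j + 1 : ℕ) : k) * a i (j + 1)

theorem d_pow_succ {C : NDga k A} {v y : A} (hs : C.sg v = v) (hd : C.d v = y)
    (hc : y * v = v * y) (j : ℕ) : C.d (v ^ (j + 1)) = ((j + 1 : ℕ) : k) • (y * v ^ j) := by
  induction j with
  | zero => simp [hd]
  | succ j ih =>
    have h1 : v ^ (j + 1) * y = y * v ^ (j + 1) :=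
      ((show Commute y v from hc).pow_right (j + 1)).symm
    rw [pow_succ v (j + 1), C.leib, ih, map_pow, hs, hd, h1, smul_mul_assoc, mul_assoc, ← pow_succ]
    push_cast
    module

theorem d_pev {C : NDga k A} {u v y : A} (hsu : C.sg u = u) (hsv : C.sg v = v) (hdu : C.d u = 0)
    (hdv : C.d v = y) (hyu : y * u = u * y) (hyv : y * v = v * y) {N : ℕ} {a : ℕ → ℕ → k}
    (ha : ∀ i j, a i j ≠ 0 → i + j ≤ N) :
    C.d (pev u v N a) = y * pev u v N (der a) := by
  have h1 : ∀ i j, C.d (u ^ i * v ^ (j + 1)) = ((j + 1 : ℕ) : k) • (y * (u ^ i * v ^ j)) := by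
    intro i j
    have h2 : u ^ i * y = y * u ^ i := ((show Commute y u from hyu).pow_right i).symm
    rw [C.leib, C.d_pow hdu, zero_mul, zero_add, map_pow, hsu, d_pow_succ hsv hdv hyv,
      mul_smul_comm, ← mul_assoc, h2, mul_assoc]
  have h0 : ∀ i, C.d (u ^ i * v ^ 0) = 0 := fun i => by
    rw [pow_zero, mul_one, C.d_pow hdu]
  rw [pev, pev, map_sum, Finset.mul_sum]
  refine Finset.sum_congr rfl fun i _ => ?_
  rw [map_sum, Finset.sum_range_succ', map_smul, h0, smul_zero, add_zero, Finset.mul_sum,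
    Finset.sum_range_succ]
  have hN : der a i N = 0 := by
    have : a i (N + 1) = 0 := by
      by_contra h
      have := ha _ _ h
      omega
    rw [der, this, mul_zero]
  rw [hN, zero_smul, mul_zero, add_zero]
  refine Finset.sum_congr rfl fun j _ => ?_
  rw [map_smul, h1, mul_smul_comm, smul_smul, der, mul_comm]

end pev

/-! ### the step -/

/-- **the output of PUSH for one class**: if `d w = y c`, `d c = y c'` and `w` is exact on the fibre
then `c` is exact on the fibre, one level below -/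
def PushAt {A : Type*} {A' : Type*} {A'' : Type*} [Ring A] [Algebra k A] [Ring A'] [Algebra k A']
    [Ring A''] [Algebra k A''] {D : NDga k A} {O : NDga k A'} {O' : NDga k A''}
    (r : NDga.Hom D O) (ρ : NDga.Hom O O') (y : A) (q : ℕ) : Prop :=
  ∀ (m m' : ℕ) (w c : A), w ∈ D.deg m → c ∈ D.deg m' → m' + q = m → D.d w = y * c →
    (D.d c = 0 ∨ ∃ m'' c', m'' + q = m' ∧ c' ∈ D.deg m'' ∧ D.d c = y * c') →
    r.f w ∈ O.B m → ρ.f (r.f c) ∈ O'.B m'

/-- the monomials `α ^ i * β ^ j`, `i + j ≤ N`, are independent modulo exact elements -/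
def IndepN {A : Type*} [Ring A] [Algebra k A] (C : NDga k A) (α β : A) (p q N : ℕ) : Prop :=
  ∀ (n : ℕ) (a : ℕ → ℕ → k), (∀ i j, a i j ≠ 0 → i + j ≤ N ∧ i * p + j * q = n) →
    ∑ i ∈ Finset.range (N + 1), ∑ j ∈ Finset.range (N + 1), a i j • (α ^ i * β ^ j) ∈ C.B n →
    ∀ i j, a i j = 0

section Step

variable {A A' A'' : Type*} [Ring A] [Algebra k A] [Ring A'] [Algebra k A'] [Ring A'']
  [Algebra k A''] {D : NDga k A} {O : NDga k A'} {O' : NDga k A''}
  {r : NDga.Hom D O} {ρ : NDga.Hom O O'}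

/-- one derivative -/
theorem push_poly {y u v : A} {p q : ℕ} (hp : Even p) (hq : Even q) (hu : u ∈ D.deg p)
    (hv : v ∈ D.deg q) (hdu : D.d u = 0) (hdv : D.d v = y) (hyu : y * u = u * y)
    (hyv : y * v = v * y) (hpush : PushAt r ρ y q) {N n : ℕ} {a : ℕ → ℕ → k}
    (ha : ∀ i j, a i j ≠ 0 → i + j ≤ N ∧ i * p + j * q = n) (hn : q ≤ n)
    (hB : pev (r.f u) (r.f v) N a ∈ O.B n) :
    pev (ρ.f (r.f u)) (ρ.f (r.f v)) N (der a) ∈ O'.B (n - q) := by
  have hder : ∀ i j, der a i j ≠ 0 → i * p + j * q = n - q := by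
    intro i j h
    have h1 : a i (j + 1) ≠ 0 := fun h0 => h (by rw [der, h0, mul_zero])
    have h2 := (ha _ _ h1).2
    rw [Nat.succ_mul] at h2
    omega
  have hN : ∀ i j, der a i j ≠ 0 → i + j ≤ N := by
    intro i j h
    have h1 : a i (j + 1) ≠ 0 := fun h0 => h (by rw [der, h0, mul_zero])
    have h2 := (ha _ _ h1).1
    omega
  have hdc : D.d (pev u v N (der a)) = y * pev u v N (der (der a)) :=
    d_pev (D.sg_of_even hu hp) (D.sg_of_even hv hq) hdu hdv hyu hyv hN
  have h3 := hpush n (n - q) (pev u v N a) (pev u v N (der a))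
    (pev_deg hu hv fun i j h => (ha i j h).2) (pev_deg hu hv hder) (by omega)
    (d_pev (D.sg_of_even hu hp) (D.sg_of_even hv hq) hdu hdv hyu hyv fun i j h => (ha i j h).1)
    (by
      by_cases hz : ∃ i j, der (der a) i j ≠ 0
      · obtain ⟨i₀, j₀, h0⟩ := hz
        have h1 : ∀ i j, der (der a) i j ≠ 0 → i * p + (j + 1) * q = n - q := fun i j h =>
          hder i (j + 1) fun h' => h (by rw [der, h', mul_zero])
        have h2 : q ≤ n - q := by
          have := h1 i₀ j₀ h0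
          rw [Nat.succ_mul] at this
          omega
        refine Or.inr ⟨n - q - q, _, by omega, pev_deg hu hv fun i j h => ?_, hdc⟩
        have := h1 i j h
        rw [Nat.succ_mul] at this
        omega
      · push Not at hz
        left
        rw [hdc, pev]
        simp [hz])
    (by rw [map_pev]; exact hB)
  rwa [map_pev, map_pev] at h3

end Step

theorem indepN_zero {A : Type*} [Ring A] [Algebra k A] {C : NDga k A} (h1 : (1 : A) ≠ 0)
    (α β : A) (p q : ℕ) : IndepN C α β p q 0 := by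
  intro n a ha hB i j
  by_contra h
  obtain ⟨h2, h3⟩ := ha i j h
  obtain rfl : i = 0 := by omega
  obtain rfl : j = 0 := by omega
  have hn : n = 0 := by omega
  subst hn
  have h4' : a 0 0 • (1 : A) ∈ C.B 0 := by simpa using hB
  have h4 : a 0 0 • (1 : A) = 0 := h4'
  rcases smul_eq_zero.1 h4 with h5 | h5
  · exact h h5
  · exact h1 h5

/-- the induction step of FIN -/
theorem IndepN.step [CharZero k] {A B A' A'' : Type*} [Ring A] [Algebra k A] [Ring B] [Algebra k B]
    [Ring A'] [Algebra k A'] [Ring A''] [Algebra k A''] {D : NDga k A} {E : NDga k B}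
    {O : NDga k A'} {O' : NDga k A''} {r : NDga.Hom D O} {s : NDga.Hom E O} {ρ : NDga.Hom O O'}
    {p q N : ℕ} (hp : Even p) (hq : Even q) (h1 : (1 : A') ≠ 0)
    {β₁ y₁ : A} (hβ₁ : β₁ ∈ D.deg p) (hd₁ : D.d β₁ = y₁) (hc₁ : y₁ * β₁ = β₁ * y₁)
    (hP₁ : PushAt r ρ y₁ p)
    {u v y₂ : B} (hu : u ∈ E.deg p) (hv : v ∈ E.deg q) (hdu : E.d u = 0) (hdv : E.d v = y₂)
    (hyu : y₂ * u = u * y₂) (hyv : y₂ * v = v * y₂) (hP₂ : PushAt s ρ y₂ q)
    {a₁ a₂ : A'} (hra : r.f β₁ = a₁) (hsa₁ : s.f u = a₁) (hsa₂ : s.f v = a₂)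
    (h : IndepN O' (ρ.f a₁) (ρ.f a₂) p q N) : IndepN O a₁ a₂ p q (N + 1) := by
  intro n a ha hB
  -- first step: the derivative with respect to the second variable
  have hB' : pev a₁ a₂ (N + 1) a ∈ O.B n := hB
  have S1 : ∀ i j, a i (j + 1) = 0 := by
    intro i j
    by_contra hij
    have hn : q ≤ n := by
      have h2 := (ha _ _ hij).2
      rw [Nat.succ_mul] at h2
      omega
    have h3 := push_poly (r := s) (ρ := ρ) hp hq hu hv hdu hdv hyu hyv hP₂ ha hn
      (by rw [hsa₁, hsa₂]; exact hB')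
    rw [hsa₁, hsa₂] at h3
    have h4 : ∀ i j, der a i j ≠ 0 → i + j ≤ N ∧ i * p + j * q = n - q := by
      intro i j h0
      have h5 : a i (j + 1) ≠ 0 := fun h6 => h0 (by rw [der, h6, mul_zero])
      obtain ⟨h6, h7⟩ := ha _ _ h5
      rw [Nat.succ_mul] at h7
      exact ⟨by omega, by omega⟩
    rw [pev_mono _ _ (Nat.le_succ N) fun i j h0 => (h4 i j h0).1] at h3
    have h5 := h (n - q) (der a) h4 h3 i j
    rw [der] at h5
    rcases mul_eq_zero.1 h5 with h6 | h6
    · exact absurd (Nat.cast_eq_zero.1 h6) (by omega)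
    · exact hij h6
  -- second step: the powers of the first variable
  have S2 : ∀ i, a (i + 1) 0 = 0 := by
    intro i
    by_contra hi
    have hn : p ≤ n := by
      have h2 := (ha _ _ hi).2
      rw [Nat.succ_mul] at h2
      omega
    let b : ℕ → ℕ → k := fun i j => if i = 0 then a j 0 else 0
    have hb : ∀ i j, b i j ≠ 0 → i + j ≤ N + 1 ∧ i * p + j * p = n := by
      intro i j h0
      by_cases hi0 : i = 0
      · subst hi0
        have h2 : a j 0 ≠ 0 := by simpa [b] using h0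
        obtain ⟨h3, h4⟩ := ha _ _ h2
        exact ⟨by omega, by omega⟩
      · exact absurd (if_neg hi0) h0
    have hbe : pev (0 : A') a₁ (N + 1) b = pev a₁ a₂ (N + 1) a := by
      rw [pev, pev, Finset.sum_range_succ']
      have h2 : ∀ i ∈ range (N + 1), ∑ j ∈ range (N + 1 + 1), b (i + 1) j •
          ((0 : A') ^ (i + 1) * a₁ ^ j) = 0 := fun i _ => Finset.sum_eq_zero fun j _ => by
        rw [show b (i + 1) j = 0 from if_neg (Nat.succ_ne_zero i), zero_smul]
      rw [Finset.sum_eq_zero h2, zero_add]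
      refine Finset.sum_congr rfl fun j _ => ?_
      rw [Finset.sum_range_succ']
      have h3 : ∀ l ∈ range (N + 1), a j (l + 1) • (a₁ ^ j * a₂ ^ (l + 1)) = 0 := fun l _ => by
        rw [S1, zero_smul]
      rw [Finset.sum_eq_zero h3, zero_add, show b 0 j = a j 0 from if_pos rfl, pow_zero, pow_zero,
        one_mul, mul_one]
    have h3 := push_poly (r := r) (ρ := ρ) (u := 0) hp hp (Submodule.zero_mem _) hβ₁
      (map_zero _) hd₁ (by rw [mul_zero, zero_mul]) hc₁ hP₁ hb hn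
      (by rw [map_zero, hra, hbe]; exact hB')
    rw [map_zero, map_zero, hra] at h3
    let c : ℕ → ℕ → k := fun i j => if j = 0 then ((i + 1 : ℕ) : k) * a (i + 1) 0 else 0
    have hc : ∀ i j, c i j ≠ 0 → i + j ≤ N ∧ i * p + j * q = n - p := by
      intro i j h0
      by_cases hj0 : j = 0
      · subst hj0
        have h2 : a (i + 1) 0 ≠ 0 := fun h5 => h0 (by simp [c, h5])
        obtain ⟨h3, h4⟩ := ha _ _ h2
        rw [Nat.succ_mul] at h4
        exact ⟨by omega, by omega⟩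
      · exact absurd (if_neg hj0) h0
    have hce : pev (0 : A'') (ρ.f a₁) (N + 1) (der b) = pev (ρ.f a₁) (ρ.f a₂) (N + 1) c := by
      rw [pev, pev, Finset.sum_range_succ']
      have h2 : ∀ i ∈ range (N + 1), ∑ j ∈ range (N + 1 + 1), der b (i + 1) j •
          ((0 : A'') ^ (i + 1) * (ρ.f a₁) ^ j) = 0 := fun i _ => Finset.sum_eq_zero fun j _ => by
        rw [der, show b (i + 1) (j + 1) = 0 from if_neg (Nat.succ_ne_zero i), mul_zero, zero_smul]
      rw [Finset.sum_eq_zero h2, zero_add]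
      refine Finset.sum_congr rfl fun j _ => ?_
      rw [Finset.sum_range_succ']
      have h3 : ∀ l ∈ range (N + 1), c j (l + 1) • ((ρ.f a₁) ^ j * (ρ.f a₂) ^ (l + 1)) = 0 :=
        fun l _ => by rw [show c j (l + 1) = 0 from if_neg (Nat.succ_ne_zero l), zero_smul]
      rw [Finset.sum_eq_zero h3, zero_add, der, show b 0 (j + 1) = a (j + 1) 0 from if_pos rfl,
        show c j 0 = ((j + 1 : ℕ) : k) * a (j + 1) 0 from if_pos rfl, pow_zero, pow_zero,
        one_mul, mul_one]
    rw [hce, pev_mono _ _ (Nat.le_succ N) fun i j h0 => (hc i j h0).1] at h3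
    have h5 := h (n - p) c hc h3 i 0
    rw [show c i 0 = ((i + 1 : ℕ) : k) * a (i + 1) 0 from if_pos rfl] at h5
    rcases mul_eq_zero.1 h5 with h6 | h6
    · exact absurd (Nat.cast_eq_zero.1 h6) (by omega)
    · exact hi h6
  -- third step: the constant
  have S3 : a 0 0 = 0 := by
    by_contra h0
    have hn : n = 0 := by
      have := (ha _ _ h0).2
      omega
    subst hn
    have h2 : pev a₁ a₂ (N + 1) a = a 0 0 • (1 : A') := by
      rw [pev, Finset.sum_range_succ']
      have h3 : ∀ i ∈ range (N + 1), ∑ j ∈ range (N + 1 + 1), a (i + 1) j •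
          (a₁ ^ (i + 1) * a₂ ^ j) = 0 := fun i _ => Finset.sum_eq_zero fun j _ => by
        cases j with
        | zero => rw [S2, zero_smul]
        | succ j => rw [S1, zero_smul]
      rw [Finset.sum_eq_zero h3, zero_add, Finset.sum_range_succ']
      have h4 : ∀ l ∈ range (N + 1), a 0 (l + 1) • (a₁ ^ 0 * a₂ ^ (l + 1)) = 0 := fun l _ => by
        rw [S1, zero_smul]
      rw [Finset.sum_eq_zero h4, zero_add, pow_zero, pow_zero, one_mul]
    rw [h2] at hB'
    rcases smul_eq_zero.1 (show a 0 0 • (1 : A') = 0 from hB') with h5 | h5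
    · exact h0 h5
    · exact h1 h5
  intro i j
  cases j with
  | succ j => exact S1 i j
  | zero =>
    cases i with
    | succ i => exact S2 i
    | zero => exact S3

/-- **FIN**: the monomials are independent at every level of a tower in which one level is lost
for every derivative. -/
theorem indepN_of_push [CharZero k] {p q : ℕ} (hp : Even p) (hq : Even q) {M : ℕ}
    {OA : ℕ → Type u} [∀ n, Ring (OA n)] [∀ n, Algebra k (OA n)] (O : ∀ n, NDga k (OA n))
    (ρ : ∀ n, NDga.Hom (O (n + 1)) (O n)) (h1 : ∀ n, (1 : OA n) ≠ 0)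
    {DA : ℕ → Type v} [∀ n, Ring (DA n)] [∀ n, Algebra k (DA n)] (D : ∀ n, NDga k (DA n))
    (r : ∀ n, NDga.Hom (D n) (O n))
    {EA : ℕ → Type w} [∀ n, Ring (EA n)] [∀ n, Algebra k (EA n)] (E : ∀ n, NDga k (EA n))
    (s : ∀ n, NDga.Hom (E n) (O n))
    (β₁ y₁ : ∀ n, DA n) (u v y₂ : ∀ n, EA n) (a₁ a₂ : ∀ n, OA n)
    (hβ₁ : ∀ n < M, β₁ (n + 1) ∈ (D (n + 1)).deg p)
    (hd₁ : ∀ n < M, (D (n + 1)).d (β₁ (n + 1)) = y₁ (n + 1))
    (hc₁ : ∀ n < M, y₁ (n + 1) * β₁ (n + 1) = β₁ (n + 1) * y₁ (n + 1))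
    (hP₁ : ∀ n < M, PushAt (r (n + 1)) (ρ n) (y₁ (n + 1)) p)
    (hu : ∀ n < M, u (n + 1) ∈ (E (n + 1)).deg p) (hv : ∀ n < M, v (n + 1) ∈ (E (n + 1)).deg q)
    (hdu : ∀ n < M, (E (n + 1)).d (u (n + 1)) = 0)
    (hdv : ∀ n < M, (E (n + 1)).d (v (n + 1)) = y₂ (n + 1))
    (hyu : ∀ n < M, y₂ (n + 1) * u (n + 1) = u (n + 1) * y₂ (n + 1))
    (hyv : ∀ n < M, y₂ (n + 1) * v (n + 1) = v (n + 1) * y₂ (n + 1))
    (hP₂ : ∀ n < M, PushAt (s (n + 1)) (ρ n) (y₂ (n + 1)) q)
    (hra : ∀ n < M, (r (n + 1)).f (β₁ (n + 1)) = a₁ (n + 1))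
    (hsa₁ : ∀ n < M, (s (n + 1)).f (u (n + 1)) = a₁ (n + 1))
    (hsa₂ : ∀ n < M, (s (n + 1)).f (v (n + 1)) = a₂ (n + 1))
    (hρ₁ : ∀ n < M, (ρ n).f (a₁ (n + 1)) = a₁ n) (hρ₂ : ∀ n < M, (ρ n).f (a₂ (n + 1)) = a₂ n) :
    ∀ n ≤ M, IndepN (O n) (a₁ n) (a₂ n) p q n := by
  intro n
  induction n with
  | zero => exact fun _ => indepN_zero (h1 0) _ _ _ _
  | succ n ih =>
    intro hn
    have h2 := ih (by omega)
    rw [← hρ₁ n hn, ← hρ₂ n hn] at h2
    exact IndepN.step hp hq (h1 (n + 1)) (hβ₁ n hn) (hd₁ n hn) (hc₁ n hn)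
      (hP₁ n hn) (hu n hn) (hv n hn) (hdu n hn) (hdv n hn) (hyu n hn) (hyv n hn)
      (hP₂ n hn) (hra n hn) (hsa₁ n hn) (hsa₂ n hn) h2

end Vale.Agent.P216.V670
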