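import Vale.Agent.P216.H923G.Abs
import Vale.Agent.P216.V670.Fin

/-!
# P216-V, block (F): PUSH at fixed scales, and on germs

`step`: one step of the iteration, from 923's `PushD`. `PSys`: levels `t : ℝ` and scales `i : ι`
(late = small): base `C i`, hybrid `D t i`, fibre `O t i`. `PSys.push`: if `D w = η c`,
`D c = η c'` (or `0`) and `w` is exact on the fibre, then `c` is exact on the fibre, `N` levels
below and at a smaller scale. `IsCol`: what is used of the colimit over the scales.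
`PSys.pushAt`: `PushAt` for germs.
-/

open Finset

namespace Vale.Agent.P216.V670

open V609 H923G

section Step

variable {k : Type*} [Field k]
variable {B B' B'' W W' W'' Ω : Type*} [Ring B] [Algebra k B] [Ring B'] [Algebra k B']
  [Ring B''] [Algebra k B''] [Ring W] [Algebra k W] [Ring W'] [Algebra k W'] [Ring W'']
  [Algebra k W''] [Ring Ω] [Algebra k Ω]
  {C : Cdga k B} {C' : Cdga k B'} {C'' : Cdga k B''} {D : NDga k W} {D' : NDga k W'}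
  {D'' : NDga k W''} {O : NDga k Ω}
  {φ : CHom C D} {φ' : CHom C' D'} {φ'' : CHom C'' D''} {ρ : Cdga.Hom C C'}
  {r : NDga.Hom D D'} {L : ℕ → Submodule k W} {L' : ℕ → Submodule k W'}
  {L'' : ℕ → Submodule k W''} {rO : NDga.Hom D O} {q : ℕ} {A : Type*} [Fintype A]

/-- the coefficients of a class with lower differential are closed -/
theorem ev_closed (P : PushD φ φ' ρ r L L' rO q A) (F : Fil φ L) {w : W} (hw : w ∈ L (q + 1))
    (hd : D.d w ∈ L q) (a : A) : C'.d (P.c a w) = 0 := by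
  rw [P.d a hw (F.mono q.le_succ hd), P.low a hd, smul_zero]

/-- **One step.** -/
theorem step (P : PushD φ φ' ρ r L L' rO q A) (F : Fil φ L) (F'' : Fil φ'' L'')
    (β : Cdga.Hom C' C'') (r' : NDga.Hom D' D'') (hφ : ∀ b, r'.f (φ'.f b) = φ''.f (β.f b))
    (hr : ∀ {n w}, w ∈ L' n → r'.f w ∈ L'' n) {m j : ℕ} (hm : m = j + q) {w : W}
    (hw : w ∈ D.deg m) (hwL : w ∈ L (q + 1)) (hd : D.d w ∈ L q) (b : A → B'')
    (hb : ∀ a, C''.d (b a) = β.f (P.c a w))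
    (hbd : ∀ a, (j = 0 ∧ b a = 0) ∨ ∃ j', j = j' + 1 ∧ b a ∈ C''.deg j') :
    ∃ w' ∈ D''.deg m, w' ∈ L'' q ∧ D''.d w' = r'.f (r.f (D.d w)) := by
  have h1 := hr (P.main hwL (F.mono q.le_succ hd))
  have hV : ∀ a, D''.sg (r'.f (P.V a)) = (-1 : k) ^ q • r'.f (P.V a) := fun a =>
    D''.sg_deg (r'.deg (P.V_deg a))
  have h2 : ∀ a, r'.f (P.V a * φ'.f (P.c a w)) =
      (-1 : k) ^ q • D''.d (r'.f (P.V a) * φ''.f (b a)) -
        (-1 : k) ^ q • (r'.f (D'.d (P.V a)) * φ''.f (b a)) := fun a => by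
    rw [D''.leib, ← r'.d, hV, smul_add, smul_mul_assoc, smul_smul, ← pow_add, ← two_mul,
      (even_two_mul q).neg_one_pow, one_smul, add_sub_cancel_left, map_mul, hφ, ← hb, φ''.d']
  set S := ∑ a, (-1 : k) ^ q • (r'.f (P.V a) * φ''.f (b a)) with hS
  refine ⟨r'.f (r.f w) - D''.d (r'.f (P.g w)) - D''.d S, ?_, ?_, ?_⟩
  · refine Submodule.sub_mem _ (Submodule.sub_mem _ (r'.deg (r.deg hw)) ?_) ?_
    · cases m with
      | zero => rw [P.g_deg_zero hw, map_zero, map_zero]; exact Submodule.zero_mem _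
      | succ m => exact D''.d_mem (r'.deg (P.g_deg hw))
    · rw [hS, map_sum]
      refine Submodule.sum_mem _ fun a _ => ?_
      rw [map_smul]
      refine Submodule.smul_mem _ _ ?_
      rcases hbd a with ⟨-, h⟩ | ⟨j', rfl, h⟩
      · rw [h, map_zero, mul_zero, map_zero]
        exact Submodule.zero_mem _
      · have h3 := D''.d_mem (D''.mul_mem (r'.deg (P.V_deg a)) (φ''.deg' h))
        have e : q + j' + 1 = m := by omega
        rwa [e] at h3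
  · have e : r'.f (r.f w) - D''.d (r'.f (P.g w)) - D''.d S =
        r'.f (r.f w - ∑ a, P.V a * φ'.f (P.c a w) - D'.d (P.g w)) -
          ∑ a, (-1 : k) ^ q • (r'.f (D'.d (P.V a)) * φ''.f (b a)) := by
      have e3 : r'.f (∑ a, P.V a * φ'.f (P.c a w)) = D''.d S -
          ∑ a, (-1 : k) ^ q • (r'.f (D'.d (P.V a)) * φ''.f (b a)) := by
        rw [map_sum, hS, map_sum, ← Finset.sum_sub_distrib]
        exact Finset.sum_congr rfl fun a _ => (h2 a).trans (by rw [map_smul])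
      rw [map_sub, map_sub, e3, ← r'.d]
      abel
    rw [e]
    refine Submodule.sub_mem _ h1 (Submodule.sum_mem _ fun a _ => Submodule.smul_mem _ _ ?_)
    exact F''.mul (hr (P.dV_L a)) _
  · rw [map_sub, map_sub, D''.d_d, D''.d_d, sub_zero, sub_zero, r.d, r'.d]

/-- iterated signs -/
theorem sg_iter {W : Type*} [Ring W] [Algebra k W] (D : NDga k W) {m : ℕ} {w : W}
    (hw : w ∈ D.deg m) (p : ℕ) : D.sg^[p] w = ((-1 : k) ^ (p * m)) • w := by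
  induction p with
  | zero => simp
  | succ p ih =>
    rw [Function.iterate_succ_apply', ih, map_smul, D.sg_deg hw, smul_smul, ← pow_add]
    congr 2
    ring

/-- **The last step**: `c` is exact on the fibre. -/
theorem last (P : PushD φ φ' ρ r L L' rO q A) (F : Fil φ L) {β : Cdga.Hom C' C''}
    {r' : NDga.Hom D' D''} (hφ : ∀ b, r'.f (φ'.f b) = φ''.f (β.f b))
    (hr : ∀ {n w}, w ∈ L' n → r'.f w ∈ L'' n) {Ω'' : Type*} [Ring Ω''] [Algebra k Ω'']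
    {O'' : NDga k Ω''} (rO'' : NDga.Hom D'' O'')
    (hO : ∀ {w}, w ∈ L'' q → w ∈ D''.deg q → rO''.f w = 0) {c : W} (hc : c ∈ D.deg q)
    (hd : D.d c ∈ L q) (h0 : ∀ a, β.f (P.c a c) = 0) :
    rO''.f (r'.f (r.f c)) ∈ O''.B q := by
  have hcL : c ∈ L (q + 1) := F.deg_le q hc
  have h1 := hr (P.main hcL (F.mono q.le_succ hd))
  have h2 : r'.f (r.f c - ∑ a, P.V a * φ'.f (P.c a c) - D'.d (P.g c)) =
      r'.f (r.f c) - D''.d (r'.f (P.g c)) := by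
    rw [map_sub, map_sub, map_sum, ← r'.d]
    have : ∑ a, r'.f (P.V a * φ'.f (P.c a c)) = 0 := Finset.sum_eq_zero fun a _ => by
      rw [map_mul, hφ, h0, map_zero, mul_zero]
    rw [this, sub_zero]
  rw [h2] at h1
  have hg : D''.d (r'.f (P.g c)) ∈ D''.deg q ∧ rO''.f (D''.d (r'.f (P.g c))) ∈ O''.B q := by
    cases q with
    | zero =>
      rw [P.g_deg_zero hc, map_zero, map_zero, map_zero]
      exact ⟨Submodule.zero_mem _, Submodule.zero_mem _⟩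
    | succ q =>
      refine ⟨D''.d_mem (r'.deg (P.g_deg hc)), ?_⟩
      rw [rO''.d]
      exact ⟨_, rO''.deg (r'.deg (P.g_deg hc)), rfl⟩
  have h3 := hO h1 (Submodule.sub_mem _ (r'.deg (r.deg hc)) hg.1)
  rw [map_sub, sub_eq_zero] at h3
  rw [h3]
  exact hg.2

end Step

universe w u₁ u₂ u₃ v

set_option linter.checkUnivs false in
/-- Levels `t` and scales `i`: base, hybrid, fibre. -/
structure PSys (k : Type w) [Field k] (ι : Type v) [Preorder ι] where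
  B : ι → Type u₁
  [rB : ∀ i, Ring (B i)]
  [aB : ∀ i, Algebra k (B i)]
  C : ∀ i, Cdga k (B i)
  β : ∀ i j, i ≤ j → Cdga.Hom (C i) (C j)
  W : ℝ → ι → Type u₂
  [rW : ∀ t i, Ring (W t i)]
  [aW : ∀ t i, Algebra k (W t i)]
  D : ∀ t i, NDga k (W t i)
  r : ∀ s t i j, t ≤ s → i ≤ j → NDga.Hom (D s i) (D t j)
  φ : ∀ t i, CHom (C i) (D t i)
  L : ∀ t i, ℕ → Submodule k (W t i)
  Q : ℝ → ι → Type u₃
  [rQ : ∀ t i, Ring (Q t i)]
  [aQ : ∀ t i, Algebra k (Q t i)]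
  O : ∀ t i, NDga k (Q t i)
  σ : ∀ s t i j, t ≤ s → i ≤ j → NDga.Hom (O s i) (O t j)
  rO : ∀ t i, NDga.Hom (D t i) (O t i)
  β_β : ∀ i j l h h' b, (β j l h').f ((β i j h).f b) = (β i l (h.trans h')).f b
  r_r : ∀ s t u i j l h h₁ h' h₁' w, (r t u j l h' h₁').f ((r s t i j h h₁).f w) =
    (r s u i l (h'.trans h) (h₁.trans h₁')).f w
  r_φ : ∀ s t i j h h' b, (r s t i j h h').f ((φ s i).f b) = (φ t j).f ((β i j h').f b)
  r_L : ∀ s t i j h h' {n w}, w ∈ L s i n → (r s t i j h h').f w ∈ L t j n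
  rO_r : ∀ s t i j h h' w, (rO t j).f ((r s t i j h h').f w) = (σ s t i j h h').f ((rO s i).f w)
  fil : ∀ t i, Fil (φ t i) (L t i)
  rO_L : ∀ t i {q w}, w ∈ L t i q → w ∈ (D t i).deg q → (rO t i).f w = 0

attribute [instance] PSys.rB PSys.aB PSys.rW PSys.aW PSys.rQ PSys.aQ

namespace PSys

variable {k : Type w} [Field k] {ι : Type v} [Preorder ι] (S : PSys.{w, u₁, u₂, u₃, v} k ι)

/-- 923's data between `(s, i)` and `(t, j)` -/
def Pd (s t : ℝ) (i j : ι) (h : t ≤ s) (h' : i ≤ j) (q : ℕ) : Prop :=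
  ∃ (A : Type) (_ : Fintype A), Nonempty (PushD (S.φ s i) (S.φ t j) (S.β i j h') (S.r s t i j h h')
    (S.L s i) (S.L t j) (S.rO s i) q A)

/-- the loss `c` in the levels -/
structure Loss (t₀ c : ℝ) : Prop where
  nonneg : 0 ≤ c
  pd : ∀ s t (h : t + c ≤ s), t₀ ≤ t → ∀ i q, ∃ j, ∃ h' : i ≤ j,
    S.Pd s t i j ((le_add_of_nonneg_right nonneg).trans h) h' q

/-- closed forms of degree `0 < j < e + 1` on the base are exact at a smaller scale -/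
def Bex (e : ℕ) : Prop := ∀ i m, m < e → ∀ x ∈ (S.C i).deg (m + 1), (S.C i).d x = 0 →
  ∃ j, ∃ h : i ≤ j, ∃ y ∈ (S.C j).deg m, (S.C j).d y = (S.β i j h).f x

/-- closed forms of degree `0` on the base are constant at a smaller scale -/
def Bz : Prop := ∀ i, ∀ x ∈ (S.C i).deg 0, (S.C i).d x = 0 →
  ∃ j, ∃ h : i ≤ j, ∃ c : k, (S.β i j h).f x = algebraMap k (S.B j) c

variable {S} {t₀ c : ℝ} {e : ℕ}

/-- finitely many closed forms -/
theorem Bex.fin [IsDirectedOrder ι] (H : S.Bex e) {i : ι} {m : ℕ} (hm : m < e) {A : Type}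
    [Finite A] (x : A → S.B i) (hx : ∀ a, x a ∈ (S.C i).deg (m + 1))
    (hd : ∀ a, (S.C i).d (x a) = 0) :
    ∃ j, ∃ h : i ≤ j, ∃ y : A → S.B j, (∀ a, y a ∈ (S.C j).deg m) ∧
      ∀ a, (S.C j).d (y a) = (S.β i j h).f (x a) := by
  choose j h y hy hy' using fun a => H i m hm (x a) (hx a) (hd a)
  have : Nonempty ι := ⟨i⟩
  obtain ⟨l, hl⟩ := Finite.exists_le j
  obtain ⟨l', h1, h2⟩ := directed_of (· ≤ ·) l i
  refine ⟨l', h2, fun a => (S.β (j a) l' ((hl a).trans h1)).f (y a), fun a =>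
    (S.β (j a) l' _).deg (hy a), fun a => ?_⟩
  rw [← (S.β (j a) l' _).d, hy', S.β_β]

theorem Bz.fin [IsDirectedOrder ι] (H : S.Bz) {i : ι} {A : Type}
    [Finite A] (x : A → S.B i) (hx : ∀ a, x a ∈ (S.C i).deg 0)
    (hd : ∀ a, (S.C i).d (x a) = 0) :
    ∃ j, ∃ h : i ≤ j, ∃ c : A → k, ∀ a, (S.β i j h).f (x a) = algebraMap k (S.B j) (c a) := by
  choose j h c hc using fun a => H i (x a) (hx a) (hd a)
  have : Nonempty ι := ⟨i⟩
  obtain ⟨l, hl⟩ := Finite.exists_le j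
  obtain ⟨l', h1, h2⟩ := directed_of (· ≤ ·) l i
  refine ⟨l', h2, c, fun a => ?_⟩
  rw [← S.β_β i (j a) l' (h a) ((hl a).trans h1), hc, AlgHom.commutes]

/-- **The iteration.** -/
theorem iter [IsDirectedOrder ι] (hL : S.Loss t₀ c) (hex : S.Bex e) {m' m : ℕ}
    (hm : m' + e = m) :
    ∀ (j n : ℕ), n + j = e → ∀ (s t : ℝ) (h : t ≤ s), t + c * j ≤ s → t₀ ≤ t →
      ∀ (i : ι) (w : S.W s i), w ∈ (S.D s i).deg m → (S.rO s i).f w ∈ (S.O s i).B m →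
      (S.D s i).d w ∈ S.L s i (m' + 1) →
      ∃ i', ∃ h' : i ≤ i', ∃ w' ∈ (S.D t i').deg m, w' ∈ S.L t i' (m' + n + 1) ∧
        (S.D t i').d w' = (S.r s t i i' h h').f ((S.D s i).d w) ∧
        (j = 0 → (S.rO t i').f w' ∈ (S.O t i').B m) := by
  intro j
  induction j with
  | zero =>
    intro n hn s t h _ _ i w hw hB hd
    obtain rfl : n = e := by omega
    refine ⟨i, le_rfl, (S.r s t i i h le_rfl).f w, (S.r s t i i h le_rfl).deg hw, ?_,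
      ((S.r s t i i h le_rfl).d w).symm, fun _ => ?_⟩
    · rw [hm]
      exact (S.fil t i).deg_le m ((S.r s t i i h le_rfl).deg hw)
    · rw [S.rO_r]
      exact (S.σ s t i i h le_rfl).map_B hB
  | succ j ih =>
    intro n hn s t h hs ht i w hw hB hd
    have hc := hL.nonneg
    push_cast at hs
    have hcj : 0 ≤ c * j := mul_nonneg hc (Nat.cast_nonneg j)
    have e1 : t + c ≤ s := by linarith
    obtain ⟨i₁, h₁, w₁, hw₁, hL₁, hd₁, hB₁⟩ := ih (n + 1) (by omega) s (t + c) e1 (by linarith)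
      (by linarith) i w hw hB hd
    obtain ⟨i₂, h₂, A, _, ⟨P⟩⟩ := hL.pd (t + c) t le_rfl ht i₁ (m' + n + 1)
    have F₁ := S.fil (t + c) i₁
    have hdL : (S.D (t + c) i₁).d w₁ ∈ S.L (t + c) i₁ (m' + n + 1) := by
      rw [hd₁]
      exact F₁.mono (by omega) (S.r_L _ _ _ _ _ _ hd)
    have hL₁' : w₁ ∈ S.L (t + c) i₁ (m' + n + 1 + 1) := by
      rwa [show m' + (n + 1) + 1 = m' + n + 1 + 1 by omega] at hL₁
    have hcl := ev_closed P F₁ hL₁' hdL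
    have hdeg : ∀ a, P.c a w₁ ∈ (S.C i₂).deg j := fun a => P.deg a (by omega) hw₁
    obtain ⟨i₃, h₃, b, hb, hbd⟩ : ∃ i₃, ∃ h₃ : i₂ ≤ i₃, ∃ b : A → S.B i₃,
        (∀ a, (S.C i₃).d (b a) = (S.β i₂ i₃ h₃).f (P.c a w₁)) ∧
        ∀ a, (j = 0 ∧ b a = 0) ∨ ∃ j', j = j' + 1 ∧ b a ∈ (S.C i₃).deg j' := by
      cases j with
      | zero =>
        refine ⟨i₂, le_rfl, fun _ => 0, fun a => ?_, fun a => Or.inl ⟨rfl, rfl⟩⟩
        have hq : m = m' + n + 1 := by omega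
        rw [P.f0 a (hq ▸ hw₁) (hcl a) (hq ▸ hB₁ rfl), map_zero, map_zero]
      | succ j =>
        obtain ⟨i₃, h₃, b, hb, hb'⟩ := hex.fin (m := j) (by omega) (fun a => P.c a w₁) hdeg hcl
        exact ⟨i₃, h₃, b, hb', fun a => Or.inr ⟨j, rfl, hb a⟩⟩
    obtain ⟨w', hw', hL', hd'⟩ := step P F₁ (S.fil t i₃) (S.β i₂ i₃ h₃)
      (S.r t t i₂ i₃ le_rfl h₃) (S.r_φ t t i₂ i₃ le_rfl h₃)
      (fun hw => S.r_L t t i₂ i₃ le_rfl h₃ hw) (m := m) (j := j) (by omega) hw₁ hL₁' hdL b hb hbd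
    refine ⟨i₃, h₁.trans (h₂.trans h₃), w', hw', hL', ?_, fun h0 => absurd h0 (Nat.succ_ne_zero j)⟩
    rw [hd', hd₁, S.r_r, S.r_r]

/-- **PUSH at fixed scales.** -/
theorem push [IsDirectedOrder ι] (hL : S.Loss t₀ c) (hex : S.Bex e) (hz : S.Bz) (he : 0 < e)
    (η : ∀ i, S.B i) (hη : ∀ i, η i ∈ (S.C i).deg (e + 1))
    (hβη : ∀ i j h, (S.β i j h).f (η i) = η j) (hne : ∀ i, ∀ b ∈ (S.C i).deg e,
      (S.C i).d b ≠ η i) {s t : ℝ} (h : t ≤ s) (hs : t + c * (e + 1) ≤ s) (ht : t₀ ≤ t)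
    {m m' : ℕ} (hm : m' + e = m) {i : ι} {w v : S.W s i} (hw : w ∈ (S.D s i).deg m)
    (hv : v ∈ (S.D s i).deg m') (hd : (S.D s i).d w = (S.φ s i).f (η i) * v)
    (hdv : (S.D s i).d v = 0 ∨ ∃ m'' v', m'' + e = m' ∧ v' ∈ (S.D s i).deg m'' ∧
      (S.D s i).d v = (S.φ s i).f (η i) * v')
    (hB : (S.rO s i).f w ∈ (S.O s i).B m) :
    ∃ j, ∃ h' : i ≤ j, (S.σ s t i j h h').f ((S.rO s i).f v) ∈ (S.O t j).B m' := by
  have hc := hL.nonneg
  have hce : 0 ≤ c * e := mul_nonneg hc (Nat.cast_nonneg e)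
  have F := S.fil s i
  -- multiplication by `η` from the left preserves the filtration
  have hη' : ∀ {n : ℕ} {u : S.W s i}, u ∈ (S.D s i).deg n →
      (S.φ s i).f (η i) * u ∈ S.L s i (n + 1) := by
    intro n u hu
    rw [(S.φ s i).central (hη i), sg_iter _ hu]
    refine F.mul (Submodule.smul_mem _ _ (F.deg_le n hu)) _
  have hdL : (S.D s i).d w ∈ S.L s i (m' + 1) := by
    rw [hd]
    exact hη' hv
  have hvL : (S.D s i).d v ∈ S.L s i m' := by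
    rcases hdv with h0 | ⟨m'', v', h1, h2, h3⟩
    · rw [h0]
      exact Submodule.zero_mem _
    · rw [h3]
      exact F.mono (by omega) (hη' h2)
  have e1 : t + c ≤ s := by linarith
  obtain ⟨i₁, h₁, w₁, hw₁, hL₁, hd₁, -⟩ := iter hL hex hm e 0 (by omega) s (t + c) e1
    (by linarith) (by linarith) i w hw hB hdL
  obtain ⟨i₂, h₂, A, _, ⟨P⟩⟩ := hL.pd (t + c) t le_rfl ht i₁ m'
  have F₁ := S.fil (t + c) i₁
  set v₁ := (S.r s (t + c) i i₁ e1 h₁).f v with hv₁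
  have hv₁d : v₁ ∈ (S.D (t + c) i₁).deg m' := (S.r s (t + c) i i₁ e1 h₁).deg hv
  have hv₁L : (S.D (t + c) i₁).d v₁ ∈ S.L (t + c) i₁ m' := by
    rw [hv₁, ← (S.r s (t + c) i i₁ e1 h₁).d]
    exact S.r_L _ _ _ _ _ _ hvL
  have hcl := ev_closed P F₁ (F₁.deg_le m' hv₁d) hv₁L
  have hcd : ∀ a, P.c a v₁ ∈ (S.C i₂).deg 0 := fun a => P.deg a (by omega) hv₁d
  obtain ⟨i₃, h₃, l, hl⟩ := hz.fin (fun a => P.c a v₁) hcd hcl
  -- the differential of `w₁`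
  have hdw : (S.D (t + c) i₁).d w₁ = ((-1 : k) ^ ((e + 1) * m')) •
      (v₁ * (S.φ (t + c) i₁).f (η i₁)) := by
    rw [hd₁, hd, map_mul, S.r_φ, hβη, (S.φ (t + c) i₁).central (hη i₁), sg_iter _ hv₁d,
      smul_mul_assoc]
  have hl0 : ∀ a, l a = 0 := by
    intro a
    by_contra hla
    have h3 := P.d a (w := w₁) (by simpa using hL₁) (by
      rw [hd₁]
      exact S.r_L _ _ _ _ _ _ hdL)
    rw [hdw, map_smul, P.mul, hβη, smul_smul] at h3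
    have h4 := congrArg (S.β i₂ i₃ h₃).f h3
    rw [map_smul, map_mul, hl a, hβη, ← Algebra.smul_def, smul_smul, (S.β i₂ i₃ h₃).d] at h4
    have h5 : (-1 : k) ^ m' * (-1 : k) ^ ((e + 1) * m') * l a ≠ 0 :=
      mul_ne_zero (mul_ne_zero (pow_ne_zero _ (neg_ne_zero.2 one_ne_zero))
        (pow_ne_zero _ (neg_ne_zero.2 one_ne_zero))) hla
    refine hne i₃ (((-1 : k) ^ m' * (-1 : k) ^ ((e + 1) * m') * l a)⁻¹ •
      (S.β i₂ i₃ h₃).f (P.c a w₁)) (Submodule.smul_mem _ _ ((S.β i₂ i₃ h₃).deg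
        (P.deg a (by omega) hw₁))) ?_
    rw [map_smul, h4, smul_smul, inv_mul_cancel₀ h5, one_smul]
  have h6 := last P F₁ (β := S.β i₂ i₃ h₃) (r' := S.r t t i₂ i₃ le_rfl h₃)
    (S.r_φ t t i₂ i₃ le_rfl h₃) (fun hw => S.r_L t t i₂ i₃ le_rfl h₃ hw) (S.rO t i₃)
    (fun h7 h8 => S.rO_L t i₃ h7 h8) hv₁d hv₁L (fun a => by rw [hl a, hl0, map_zero])
  refine ⟨i₃, h₁.trans (h₂.trans h₃), ?_⟩
  rw [← S.rO_r]
  rwa [hv₁, S.r_r, S.r_r] at h6

end PSys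

/-! ### Germs -/

/-- `GD` is the colimit of the algebras `D i` (all that is used of it). -/
structure IsCol {k : Type*} [Field k] {ι : Type*} [Preorder ι] {W : ι → Type*} [∀ i, Ring (W i)]
    [∀ i, Algebra k (W i)] (D : ∀ i, NDga k (W i)) (r : ∀ i j, i ≤ j → NDga.Hom (D i) (D j))
    {G : Type*} [Ring G] [Algebra k G] (GD : NDga k G) (γ : ∀ i, NDga.Hom (D i) GD) :
    Prop where
  res : ∀ i j h w, (γ j).f ((r i j h).f w) = (γ i).f w
  surj : ∀ {m z}, z ∈ GD.deg m → ∀ i₀, ∃ i, i₀ ≤ i ∧ ∃ w ∈ (D i).deg m, (γ i).f w = z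
  eq_zero : ∀ {i w}, (γ i).f w = 0 → ∃ j, ∃ h : i ≤ j, (r i j h).f w = 0

namespace IsCol

variable {k : Type*} [Field k] {ι : Type*} [Preorder ι] {W : ι → Type*} [∀ i, Ring (W i)]
  [∀ i, Algebra k (W i)] {D : ∀ i, NDga k (W i)} {r : ∀ i j, i ≤ j → NDga.Hom (D i) (D j)}
  {G : Type*} [Ring G] [Algebra k G] {GD : NDga k G} {γ : ∀ i, NDga.Hom (D i) GD}

theorem mem_B (H : IsCol D r GD γ) (rr : ∀ i j l h h' w, (r j l h').f ((r i j h).f w) =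
      (r i l (h.trans h')).f w) {i : ι} {w : W i} {m : ℕ} (hw : (γ i).f w ∈ GD.B m) :
    ∃ j, ∃ h : i ≤ j, (r i j h).f w ∈ (D j).B m := by
  cases m with
  | zero => exact H.eq_zero hw
  | succ m =>
    obtain ⟨b, hb, hbw⟩ := hw
    obtain ⟨j, hj, b', hb', rfl⟩ := H.surj hb i
    have h1 : (γ j).f ((D j).d b' - (r i j hj).f w) = 0 := by
      rw [map_sub, (γ j).d, hbw, H.res, sub_self]
    obtain ⟨l, hl, h2⟩ := H.eq_zero h1
    rw [map_sub, sub_eq_zero, (r j l hl).d, rr] at h2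
    exact ⟨l, hj.trans hl, _, (r j l hl).deg hb', h2⟩

end IsCol

namespace PSys

variable {k : Type w} [Field k] {ι : Type v} [Preorder ι] {S : PSys.{w, u₁, u₂, u₃, v} k ι}
  {t₀ c : ℝ} {e : ℕ}

/-- **PUSH on germs.** -/
theorem pushAt [IsDirectedOrder ι] [Nonempty ι] (hL : S.Loss t₀ c) (hex : S.Bex e) (hz : S.Bz)
    (he : 0 < e) (η : ∀ i, S.B i) (hη : ∀ i, η i ∈ (S.C i).deg (e + 1))
    (hβη : ∀ i j h, (S.β i j h).f (η i) = η j) (hne : ∀ i, ∀ b ∈ (S.C i).deg e,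
      (S.C i).d b ≠ η i) {s t : ℝ} (h : t ≤ s) (hs : t + c * (e + 1) ≤ s) (ht : t₀ ≤ t)
    (σσ : ∀ i j l h h' w, (S.σ s s j l le_rfl h').f ((S.σ s s i j le_rfl h).f w) =
      (S.σ s s i l le_rfl (h.trans h')).f w)
    {G G₁ G₂ : Type*} [Ring G] [Algebra k G] [Ring G₁] [Algebra k G₁] [Ring G₂] [Algebra k G₂]
    {GD : NDga k G} {GO : NDga k G₁} {GO' : NDga k G₂} {γ : ∀ i, NDga.Hom (S.D s i) GD}
    {γO : ∀ i, NDga.Hom (S.O s i) GO} {γO' : ∀ i, NDga.Hom (S.O t i) GO'}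
    (hD : IsCol (S.D s) (fun i j h => S.r s s i j le_rfl h) GD γ)
    (hO : IsCol (S.O s) (fun i j h => S.σ s s i j le_rfl h) GO γO)
    (gr : NDga.Hom GD GO) (gρ : NDga.Hom GO GO')
    (hgr : ∀ i w, gr.f ((γ i).f w) = (γO i).f ((S.rO s i).f w))
    (hgρ : ∀ i j (hij : i ≤ j) w, gρ.f ((γO i).f w) = (γO' j).f ((S.σ s t i j h hij).f w))
    {y : G} (hy : ∀ i, (γ i).f ((S.φ s i).f (η i)) = y) :
    PushAt gr gρ y e := by
  intro m m' w v hw hv hm hd hdv hB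
  -- representatives
  obtain ⟨i₀, -, w₀, hw₀, rfl⟩ := hD.surj hw (Classical.arbitrary ι)
  obtain ⟨i₁, h₁, v₁, hv₁, rfl⟩ := hD.surj hv i₀
  -- `d w = η v`
  have e1 : (γ i₁).f ((S.D s i₁).d ((S.r s s i₀ i₁ le_rfl h₁).f w₀) -
      (S.φ s i₁).f (η i₁) * v₁) = 0 := by
    rw [map_sub, (γ i₁).d, hD.res i₀ i₁ h₁, map_mul, hy, hd, sub_self]
  obtain ⟨i₂, h₂, e2⟩ := hD.eq_zero e1
  rw [map_sub, sub_eq_zero, map_mul, S.r_φ, hβη, (S.r s s i₁ i₂ le_rfl h₂).d, S.r_r] at e2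
  -- `d v = η v'`
  obtain ⟨i₃, h₃, hdv₃⟩ : ∃ i₃, ∃ h₃ : i₂ ≤ i₃,
      (S.D s i₃).d ((S.r s s i₁ i₃ le_rfl (h₂.trans h₃)).f v₁) = 0 ∨
      ∃ m'' v', m'' + e = m' ∧ v' ∈ (S.D s i₃).deg m'' ∧
        (S.D s i₃).d ((S.r s s i₁ i₃ le_rfl (h₂.trans h₃)).f v₁) = (S.φ s i₃).f (η i₃) * v' := by
    rcases hdv with h0 | ⟨m'', v', h3, h4, h5⟩
    · have e3 : (γ i₂).f ((S.r s s i₁ i₂ le_rfl h₂).f ((S.D s i₁).d v₁)) = 0 := by
        rw [hD.res i₁ i₂ h₂, (γ i₁).d, h0]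
      obtain ⟨i₃, h₃, e4⟩ := hD.eq_zero e3
      refine ⟨i₃, h₃, Or.inl ?_⟩
      rw [← (S.r s s i₁ i₃ le_rfl (h₂.trans h₃)).d, ← S.r_r s s s i₁ i₂ i₃ le_rfl h₂ le_rfl h₃]
      exact e4
    · obtain ⟨l, hl, v'', h6, rfl⟩ := hD.surj h4 i₂
      have e3 : (γ l).f ((S.D s l).d ((S.r s s i₁ l le_rfl (h₂.trans hl)).f v₁) -
          (S.φ s l).f (η l) * v'') = 0 := by
        rw [map_sub, (γ l).d, hD.res i₁ l (h₂.trans hl), map_mul, hy, h5, sub_self]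
      obtain ⟨i₃, h₃, e4⟩ := hD.eq_zero e3
      rw [map_sub, sub_eq_zero, map_mul, S.r_φ, hβη, (S.r s s l i₃ le_rfl h₃).d, S.r_r] at e4
      exact ⟨i₃, hl.trans h₃, Or.inr ⟨m'', _, h3, (S.r s s l i₃ le_rfl h₃).deg h6, e4⟩⟩
  -- `w` is exact on the fibre
  have e5 : (γO i₃).f ((S.rO s i₃).f ((S.r s s i₀ i₃ le_rfl (h₁.trans (h₂.trans h₃))).f w₀)) ∈
      GO.B m := by
    rw [← hgr, hD.res i₀ i₃ _]
    exact hB
  obtain ⟨i₄, h₄, e6⟩ := hO.mem_B σσ e5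
  have e6' : (S.rO s i₄).f ((S.r s s i₀ i₄ le_rfl (h₁.trans (h₂.trans (h₃.trans h₄)))).f w₀) ∈
      (S.O s i₄).B m := by
    rw [← S.r_r s s s i₀ i₃ i₄ le_rfl (h₁.trans (h₂.trans h₃)) le_rfl h₄, S.rO_r]
    exact e6
  have hv₄ : (S.r s s i₁ i₄ le_rfl (h₂.trans (h₃.trans h₄))).f v₁ ∈ (S.D s i₄).deg m' :=
    (S.r s s i₁ i₄ le_rfl _).deg hv₁
  have hd₄ : (S.D s i₄).d ((S.r s s i₀ i₄ le_rfl (h₁.trans (h₂.trans (h₃.trans h₄)))).f w₀) =
      (S.φ s i₄).f (η i₄) * (S.r s s i₁ i₄ le_rfl (h₂.trans (h₃.trans h₄))).f v₁ := by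
    have h7 := congrArg (S.r s s i₂ i₄ le_rfl (h₃.trans h₄)).f e2
    rw [map_mul, S.r_φ, hβη, (S.r s s i₂ i₄ le_rfl (h₃.trans h₄)).d, S.r_r, S.r_r] at h7
    exact h7
  have hdv₄ : (S.D s i₄).d ((S.r s s i₁ i₄ le_rfl (h₂.trans (h₃.trans h₄))).f v₁) = 0 ∨
      ∃ m'' v', m'' + e = m' ∧ v' ∈ (S.D s i₄).deg m'' ∧
        (S.D s i₄).d ((S.r s s i₁ i₄ le_rfl (h₂.trans (h₃.trans h₄))).f v₁) =
          (S.φ s i₄).f (η i₄) * v' := by
    rcases hdv₃ with h0 | ⟨m'', v', h3, h4, h5⟩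
    · left
      have h7 := congrArg (S.r s s i₃ i₄ le_rfl h₄).f h0
      rw [map_zero, (S.r s s i₃ i₄ le_rfl h₄).d, S.r_r] at h7
      exact h7
    · right
      have h7 := congrArg (S.r s s i₃ i₄ le_rfl h₄).f h5
      rw [map_mul, S.r_φ, hβη, (S.r s s i₃ i₄ le_rfl h₄).d, S.r_r] at h7
      exact ⟨m'', _, h3, (S.r s s i₃ i₄ le_rfl h₄).deg h4, h7⟩
  obtain ⟨j, hj, h8⟩ := push hL hex hz he η hη hβη hne h hs ht hm
    ((S.r s s i₀ i₄ le_rfl (h₁.trans (h₂.trans (h₃.trans h₄)))).deg hw₀) hv₄ hd₄ hdv₄ e6'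
  have h9 : gρ.f (gr.f ((γ i₁).f v₁)) = (γO' j).f ((S.σ s t i₄ j h hj).f ((S.rO s i₄).f
      ((S.r s s i₁ i₄ le_rfl (h₂.trans (h₃.trans h₄))).f v₁))) := by
    rw [← hgρ, ← hgr, hD.res i₁ i₄ _]
  rw [h9]
  exact (γO' j).map_B h8

end PSys

end Vale.Agent.P216.V670
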