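import Vale.Agent.P216.H929V.HD
import Vale.Agent.P216.H311.PathSp

/-!
# P216-V: the germ algebra over a point with a path above it is not zero
-/

set_option linter.all false

open Set Filter Topology

namespace Vale.Agent.P216.V670

open Vale.Agent.P231.Fm Vale.Agent.P231.WA V1 V609 H285V H929V

variable {E M N : Type} [PseudoMetricSpace E] [PseudoMetricSpace M] [PseudoMetricSpace N]
variable {π : E → N} {ρ : M → N} {A : Set M} {X : Set E}

theorem supp_single {a : M} (ha : a ∈ A) {x : E} (hx : x ∈ X) (h : ρ a = π x) {ε : ℝ}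
    (hε : 0 < ε) :
    Supp π ρ A X ε {x} (fun _ : ℝ => ((Finsupp.single x 1, [a]) : MP E M)) 0 where
  smF := ⟨fun y hy => by rwa [Finset.mem_singleton.1 hy], fun y hy z hz => by
    rw [Finset.mem_singleton.1 hy, Finset.mem_singleton.1 hz, dist_self]
    exact hε⟩
  smA := ⟨fun y hy => by rwa [List.mem_singleton.1 hy], fun y hy z hz => by
    rw [List.mem_singleton.1 hy, List.mem_singleton.1 hz, dist_self]
    exact hε⟩
  near' := fun y hy z hz => by
    rw [List.mem_singleton.1 hy, Finset.mem_singleton.1 hz, h, dist_self]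
    exact hε
  cst := Eventually.of_forall fun _ => rfl
  out := Eventually.of_forall fun _ y hy =>
    Finsupp.single_eq_of_ne (by simpa using hy)
  sum := Eventually.of_forall fun _ => by
    rw [Finset.sum_singleton, Finsupp.single_eq_same]
  sm := fun y => Sm.of_contDiff contDiff_const _

/-- at one scale -/
theorem one_ne_HT {a : M} (ha : a ∈ A) {x : E} (hx : x ∈ X) (h : ρ a = π x) {ε : ℝ}
    (hε : 0 < ε) : (1 : HT π ρ A X ε) ≠ 0 := by
  intro h0
  have h1 : (uno : Form (DT π ρ A X ε)) = 0 := congrArg HT.val h0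
  have h2 := congrArg (fun w : Form (DT π ρ A X ε) =>
    aug (w.val (fun _ : ℝ => ((Finsupp.single x 1, [a]) : MP E M)) 0)) h1
  simp only [Form.zero_val, map_zero] at h2
  rw [uno, cst_val _ (supp_single ha hx h hε)] at h2
  simp [ind] at h2

/-- **the germs** -/
theorem one_ne_HD {a : M} (ha : a ∈ A) {x : E} (hx : x ∈ X) (h : ρ a = π x) :
    (1 : HD π ρ A X) ≠ 0 := by
  intro h0
  rw [← map_one (germD π ρ A X one_pos), germD_eq_zero] at h0
  obtain ⟨δ, h1, h2, h3⟩ := h0
  rw [map_one] at h3
  exact one_ne_HT ha hx h h2 h3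

open BoundedContinuousFunction in
/-- **the based loops** -/
theorem one_ne_Om {M : Type} [MetricSpace M] (b : M) (t : ℝ) :
    (1 : HD (id : M → M) (fun w : ℝ →ᵇ M => w 0) (PS.P b b t) {b}) ≠ 0 :=
  one_ne_HD (a := PS.cst b) (PS.cst_mem b t) (mem_singleton b) rfl

end Vale.Agent.P216.V670
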