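import Vale.Agent.P216.V670.Top
import Vale.Agent.P216.V754.Col
import Vale.Agent.P216.V921.ColPol
import Vale.Agent.P216.H977V.PSysTw
import Vale.Agent.P216.H977V.PSysSub
import Vale.Agent.P216.V651.PSysPol

/-!
# P216-V, block (F): the germs along towers and `[b]`

`Ger.sub`, `Ger.tw`, `Ger.pol`: the germs of `PSys.sub`, `PSys.tw` (977) and `psysPol` (651).
-/

open Polynomial

namespace Vale.Agent.P216.V670

open V609 H923G V775 V754 V651

universe w u₁ u₂ u₃ v x₁ x₂ x₃ x₄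

section

variable {k : Type*} [Field k] {ι : Type*} [Preorder ι] {W : ι → Type*} [∀ i, Ring (W i)]
  [∀ i, Algebra k (W i)] {D : ∀ i, NDga k (W i)} {r : ∀ i j, i ≤ j → NDga.Hom (D i) (D j)}
  {G : Type*} [Ring G] [Algebra k G] {GD : NDga k G} {γ : ∀ i, NDga.Hom (D i) GD}

theorem IsCol.of754 (H : V754.IsCol D r GD γ) : IsCol D r GD γ :=
  ⟨H.comp, fun hz i => H.surj i hz, fun {i a} h => H.inj i a h⟩

theorem IsCol.to754 (H : IsCol D r GD γ) (rr : ∀ i j l h h' w,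
    (r j l h').f ((r i j h).f w) = (r i l (h.trans h')).f w) : V754.IsCol D r GD γ :=
  ⟨H.res, rr, fun i _ _ hz => H.surj hz i, fun _ _ h => H.eq_zero h⟩

end

section

variable {k : Type w} [Field k] {ι : Type v} [Preorder ι] {S : PSys.{w, u₁, u₂, u₃, v} k ι}
  {A : ℝ → Type x₁} [∀ t, Ring (A t)] [∀ t, Algebra k (A t)] {G : ∀ t, NDga k (A t)}
  {Q : ℝ → Type x₂} [∀ t, Ring (Q t)] [∀ t, Algebra k (Q t)] {O : ∀ t, NDga k (Q t)}
  {σ : ∀ s t, t ≤ s → NDga.Hom (O s) (O t)} {gr : ∀ t, NDga.Hom (G t) (O t)}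

/-- the germs, seen from the indices after `i₀` -/
def Ger.sub (H : Ger S G O σ gr) (i₀ : ι) : Ger (S.sub i₀) G O σ gr where
  γ t i := H.γ t i.1
  γO t i := H.γO t i.1
  col t := (H.col t).sub i₀
  colO t := (H.colO t).sub i₀
  gr_γ t i w := H.gr_γ t i.1 w
  σ_γ s t h i j hij w := H.σ_γ s t h i.1 j.1 hij w
  σσ t i j l h h' w := H.σσ t i.1 j.1 l.1 h h' w

/-- the restrictions of the hybrids, at a fixed level -/
theorem Ger.rr (t : ℝ) (i j l : ι) (h : i ≤ j) (h' : j ≤ l) (w : S.W t i) :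
    (S.r t t j l le_rfl h').f ((S.r t t i j le_rfl h).f w) =
      (S.r t t i l le_rfl (h.trans h')).f w := S.r_r t t t i j l le_rfl h le_rfl h' w

/-- **The germs of `psysPol`.** -/
noncomputable def Ger.pol (H : Ger S G O σ gr) {m : ℕ} (hm : Even m) (h2 : (2 : k) ≠ 0)
    (Y : PSysY S m) {y : ∀ t, A t} (hy : ∀ t, y t ∈ (G t).deg (m + 1))
    (hdy : ∀ t, (G t).d (y t) = 0) (hyc : ∀ t b, y t * b = (G t).sg b * y t)
    (hγ : ∀ t i, (H.γ t i).f ((S.φ t i).f (Y.y i)) = y t) (h0 : ∀ t, (gr t).f (y t) = 0) :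
    Ger (psysPol S hm h2 Y) (fun t => (G t).pol hm h2 (hy t) (hdy t) (hyc t)) O σ
      (fun t => (gr t).polZero hm h2 (hy t) (hdy t) (hyc t) (h0 t)) where
  γ t i := (H.γ t i).polMap hm h2 ((S.φ t i).deg' (Y.mem i)) ((S.φ t i).d_closed (Y.cl i))
    ((S.φ t i).central_odd (Y.mem i) hm.add_one) (hy t) (hdy t) (hyc t) (hγ t i)
  γO := H.γO
  col t := (H.col t).pol (Ger.rr t) hm h2 (fun i => (S.φ t i).deg' (Y.mem i))
    (fun i => (S.φ t i).d_closed (Y.cl i)) (fun i => (S.φ t i).central_odd (Y.mem i) hm.add_one)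
    (hy t) (hdy t) (hyc t) (fun i j h => Y.r_y t t i j le_rfl h) (hγ t)
  colO := H.colO
  gr_γ t i w := by
    have e : ∀ w : (S.W t i)[X], ((gr t).polZero hm h2 (hy t) (hdy t) (hyc t) (h0 t)).f
        (((H.γ t i).polMap hm h2 ((S.φ t i).deg' (Y.mem i)) ((S.φ t i).d_closed (Y.cl i))
          ((S.φ t i).central_odd (Y.mem i) hm.add_one) (hy t) (hdy t) (hyc t) (hγ t i)).f w) =
        (H.γO t i).f (((S.rO t i).polZero hm h2 ((S.φ t i).deg' (Y.mem i))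
          ((S.φ t i).d_closed (Y.cl i)) ((S.φ t i).central_odd (Y.mem i) hm.add_one)
          (Y.fib t i)).f w) := fun w => by
      rw [NDga.Hom.polZero_apply, NDga.Hom.polZero_apply, NDga.Hom.polMap_coeff, H.gr_γ]
    exact e w
  σ_γ := H.σ_γ
  σσ := H.σσ

end

section

variable {k : Type w} [Field k] {ι : Type v} [Preorder ι] {S : PSys.{w, u₁, u₂, u₃, v} k ι}
  {Xg : CD.{x₁} k} {Ag : ℝ → ND.{u₂} Xg}
  {Q : ℝ → Type u₃} [∀ t, Ring (Q t)] [∀ t, Algebra k (Q t)] {O : ∀ t, NDga k (Q t)}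
  {σ : ∀ s t, t ≤ s → NDga.Hom (O s) (O t)} {gr : ∀ t, NDga.Hom (Ag t).D (O t)}

/-- **The germs of `PSys.tw`.** -/
def Ger.tw (H : Ger S (fun t => (Ag t).D) O σ gr) (hZ : S.Zps) {X₀ : CD.{x₂} k} (T : Tw X₀)
    (K : S.Cone X₀) (g : ∀ i, (S.cd i).Hm Xg) (v : X₀.Hm Xg)
    (hv : ∀ i a, (g i).f ((K.u i).f a) = v.f a)
    (ag : ∀ t i, NMp (g i) (S.nd t i) (Ag t)) (hag : ∀ t i, (ag t i).g = H.γ t i)
    (hZg : ∀ t, Zp (Ag t) (gr t)) :
    Ger (PSys.tw hZ T K) (fun t => ((T.push v).obj (Ag t)).D) O σ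
      (fun t => tz (T.push v) (Ag t) (gr t) (hZg t)) where
  γ t i := (ntri T (K.u i) v (g i) (hv i) (ag t i)).g
  γO := H.γO
  col t := by
    have h1 : IsCol (fun i => (S.nd t i).D) (fun i j h => (S.nm t t i j le_rfl h).g) (Ag t).D
        (fun i => (ag t i).g) := by
      simp only [hag]
      exact H.col t
    exact IsCol.of754 (V754.IsCol.ntw T S.cd K.u S.β K.hu g v hv (S.nd t)
      (fun i j h => S.nm t t i j le_rfl h) (ag t) (h1.to754 (Ger.rr t)))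
  colO := H.colO
  gr_γ t i w := tz_ntri T (K.u i) v (g i) (hv i) (ag t i) (S.rO t i) (hZ t i) (gr t) (hZg t)
    (H.γO t i) (fun a => by rw [hag, H.gr_γ]) w
  σ_γ := H.σ_γ
  σσ := H.σσ

end

end Vale.Agent.P216.V670
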