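import Vale.Agent.P216.V754.Tri
import Vale.Agent.P216.V775.GoodB

/-!
# P216-V: the extension of the restriction to the based loops is `tz`

`KTw.alg_unique`: algebra maps out of a Koszul tower into any ring. `tz_eq`: a morphism which
extends `o` over an augmentation `ω` with `ω ê = 0` is `tz`.
-/

universe u v w' u' u''

set_option linter.unusedSectionVars false

open MvPolynomial Finset

namespace Vale.Agent.P216.V670

open Vale.Agent.P216.V609 Vale.Agent.P216.V775 Vale.Agent.P216.V754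
open Vale.Agent.P216.V994 (Pair)

section

variable {k : Type w'} [Field k] {σ : Type} [Fintype σ] [DecidableEq σ] {w : σ → ℕ} {f : ℕ}
  {Q : σ → MvPolynomial σ k} {q : σ → σ → MvPolynomial σ k} {X : CD.{u} k} {S : KS X w f Q}
  {s : Finset σ} {e : σ → X.A} {T : Tw X} {ê : σ → T.top.A}

/-- **Algebra maps out of a Koszul tower** are determined by the base and the generators. -/
theorem KTw.alg_unique (h : KTw q S s e T ê) {R : Type*} [Ring R] [Algebra k R]
    {φ ψ : T.top.A →ₐ[k] R} (h1 : ∀ a, φ (T.inc.f a) = ψ (T.inc.f a))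
    (h2 : ∀ j, φ (ê j) = ψ (ê j)) (a : T.top.A) : φ a = ψ a := by
  induction h with
  | done S e => exact h1 a
  | step S s e j hj hmin hl c hc hx hdx T ê h ih =>
    refine ih (φ := φ) (ψ := ψ) (fun b => ?_) h2 a
    have h3 : T.inc.f (Ex.e _) = ê j := by
      rw [h.inc_eq j (mem_insert_self j s), nxt_self]
    have h4 : ∀ χ : T.top.A →ₐ[k] R, χ (T.inc.f b) = χ (T.inc.f (Ex.inl _ b.1)) +
        χ (T.inc.f (Ex.inl _ b.2)) * χ (ê j) := fun χ => by
      conv_lhs => rw [Ex.eq_inl_add b, map_add, map_mul, map_add, map_mul, h3]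
    refine (h4 φ).trans (Eq.trans ?_ (h4 ψ).symm)
    exact congrArg₂ (· + ·) (h1 b.1) (congrArg₂ (· * ·) (h1 b.2) (h2 j))

end

variable {k : Type w'} [Field k] [CharZero k] {X : CD.{u} k} {P : Pair X.C} {T : Tw X}
  {ê : P.σ → T.top.A}

/-- **The extension is `tz`.** -/
theorem tz_eq (h : PTw P T ê) {Xb : CD.{v} k} {ε : X.Hm Xb} {ω : T.top.Hm Xb}
    (hω0 : ∀ j, ω.f (ê j) = 0) {A : ND.{u'} X}
    {O : ND.{u''} Xb} (o : NMp ε A O) (hz : Zp A o.g) (o' : NMp ω (T.obj A) O)
    (ho : ∀ a, o'.g.f ((T.inj A).f a) = o.g.f a) (a : (T.obj A).A) :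
    o'.g.f a = (tz T A o.g hz).f a := by
  refine T.nlift_unique (g := o'.g) (g' := tz T A o.g hz) (fun b => ?_) (fun b => ?_) a
  · rw [ho, tz_inj]
  · refine KTw.alg_unique h (φ := o'.g.f.comp (T.obj A).ev.f)
      (ψ := (tz T A o.g hz).f.comp (T.obj A).ev.f) (fun c => ?_) (fun j => ?_) b
    · show o'.g.f ((T.obj A).ev.f (T.inc.f c)) = (tz T A o.g hz).f ((T.obj A).ev.f (T.inc.f c))
      rw [T.ev_inc, ho, tz_inj]
    · show o'.g.f ((T.obj A).ev.f (ê j)) = (tz T A o.g hz).f ((T.obj A).ev.f (ê j))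
      rw [o'.ev, hω0, map_zero]
      have h5 := PTw.mem h j
      have h6 := P.hw j
      obtain ⟨m, hm⟩ : ∃ m, 2 * P.w j - 1 = m + 1 := ⟨2 * P.w j - 2, by omega⟩
      rw [hm] at h5
      exact (zp_tz T A o.g hz m (ê j) h5).symm

end Vale.Agent.P216.V670
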