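import Vale.Agent.P216.V670.Fin
import Vale.Agent.P216.V609.NTwo

/-!
# P216-V, block F-FIN: the output of (F), levels indexed by real numbers

`C t` is the hybrid algebra of the paths of level `t` over the base `B(M)`, `C' t` the one over
`B'(M) = B(M)[b]`, `O t` the algebra of the based loops, `φ`, `φ'` the restrictions to the based
loops; `c` is the loss of PUSH.
-/

open Finset

namespace Vale.Agent.P216.V670

open V609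

universe u₁ u₂ u₃ w

/-- **(F), abstract form**: from PUSH for `y₁` over `B(M)` and for `y₂` over `B(M)[b]`, the
monomials in the restrictions of `β₁`, `β₂` (`d β₁ = y₁`, `d β₂ = y₂`) to the based loops are
independent. -/
theorem f_out' {k : Type w} [Field k] [CharZero k] {p q : ℕ} (hp : Even p) (hq : Even q)
    {A : ℝ → Type u₁} [∀ t, Ring (A t)] [∀ t, Algebra k (A t)] (C : ∀ t, NDga k (A t))
    (ρ : ∀ s t, t ≤ s → NDga.Hom (C s) (C t))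
    {A' : ℝ → Type u₂} [∀ t, Ring (A' t)] [∀ t, Algebra k (A' t)] (C' : ∀ t, NDga k (A' t))
    {Q : ℝ → Type u₃} [∀ t, Ring (Q t)] [∀ t, Algebra k (Q t)] (O : ∀ t, NDga k (Q t))
    (σ : ∀ s t, t ≤ s → NDga.Hom (O s) (O t))
    (φ : ∀ t, NDga.Hom (C t) (O t)) (φ' : ∀ t, NDga.Hom (C' t) (O t))
    (φ_ρ : ∀ s t h a, (φ t).f ((ρ s t h).f a) = (σ s t h).f ((φ s).f a))
    (j : ∀ t, NDga.Hom (C t) (C' t)) (φ'_j : ∀ t a, (φ' t).f ((j t).f a) = (φ t).f a)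
    (y₁ y₂ : ∀ t, A t) (hy₁ : ∀ s t h, (ρ s t h).f (y₁ s) = y₁ t)
    (hy₂ : ∀ s t h, (ρ s t h).f (y₂ s) = y₂ t)
    (hc₁ : ∀ t a, (C t).sg a = a → y₁ t * a = a * y₁ t)
    (hc₂ : ∀ t a, (C' t).sg a = a → (j t).f (y₂ t) * a = a * (j t).f (y₂ t))
    (b : ∀ t, A' t) (hb : ∀ t, b t ∈ (C' t).deg p)
    (hdb : ∀ t, (C' t).d (b t) = (j t).f (y₁ t)) (φ'_b : ∀ t, (φ' t).f (b t) = 0)
    {c t₀ : ℝ} (h1 : ∀ t, t₀ ≤ t → (1 : Q t) ≠ 0) (hc : 0 ≤ c)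
    (hP₁ : ∀ s t (h : t + c ≤ s), t₀ ≤ t →
      PushAt (φ s) (σ s t ((le_add_of_nonneg_right hc).trans h)) (y₁ s) p)
    (hP₂ : ∀ s t (h : t + c ≤ s), t₀ ≤ t →
      PushAt (φ' s) (σ s t ((le_add_of_nonneg_right hc).trans h)) ((j s).f (y₂ s)) q) :
    ∀ (N : ℕ) (t : ℝ), t₀ + c * N ≤ t → ∀ β₁ β₂ : A t, β₁ ∈ (C t).deg p → β₂ ∈ (C t).deg q →
      (C t).d β₁ = y₁ t → (C t).d β₂ = y₂ t →
      NIndep (O t) ((φ t).f β₁) ((φ t).f β₂) p q N := by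
  intro N
  induction N with
  | zero =>
    exact fun t ht β₁ β₂ _ _ _ _ => indepN_zero (h1 t (by
      rw [Nat.cast_zero, mul_zero, add_zero] at ht
      exact ht)) _ _ _ _
  | succ N ih =>
    intro t ht β₁ β₂ hβ₁ hβ₂ hd₁ hd₂
    push_cast at ht
    have e1 : t - c + c ≤ t := by linarith
    have e2 : t₀ ≤ t - c := by
      have : 0 ≤ c * N := mul_nonneg hc (Nat.cast_nonneg N)
      linarith
    have e3 : t - c ≤ t := by linarith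
    have h2 := ih (t - c) (by linarith) ((ρ t (t - c) e3).f β₁) ((ρ t (t - c) e3).f β₂)
      ((ρ t (t - c) e3).deg hβ₁) ((ρ t (t - c) e3).deg hβ₂)
      (by rw [← (ρ t (t - c) e3).d, hd₁, hy₁]) (by rw [← (ρ t (t - c) e3).d, hd₂, hy₂])
    rw [φ_ρ, φ_ρ] at h2
    have hu : (j t).f β₁ - b t ∈ (C' t).deg p := Submodule.sub_mem _ ((j t).deg hβ₁) (hb t)
    have hv : (j t).f β₂ ∈ (C' t).deg q := (j t).deg hβ₂
    exact IndepN.step (r := φ t) (s := φ' t) (ρ := σ t (t - c) e3) (u := (j t).f β₁ - b t)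
      (v := (j t).f β₂) hp hq (h1 t (e2.trans e3)) hβ₁ hd₁ (hc₁ t _ ((C t).sg_of_even hβ₁ hp))
      (hP₁ t (t - c) e1 e2) hu hv
      (by rw [map_sub, ← (j t).d, hd₁, hdb, sub_self]) (by rw [← (j t).d, hd₂])
      (hc₂ t _ ((C' t).sg_of_even hu hp)) (hc₂ t _ ((C' t).sg_of_even hv hq))
      (hP₂ t (t - c) e1 e2) rfl (by rw [map_sub, φ'_j, φ'_b, sub_zero]) (φ'_j t _) h2

/-- `f_out'` with `1 ≠ 0` at all levels -/
theorem f_out {k : Type w} [Field k] [CharZero k] {p q : ℕ} (hp : Even p) (hq : Even q)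
    {A : ℝ → Type u₁} [∀ t, Ring (A t)] [∀ t, Algebra k (A t)] (C : ∀ t, NDga k (A t))
    (ρ : ∀ s t, t ≤ s → NDga.Hom (C s) (C t))
    {A' : ℝ → Type u₂} [∀ t, Ring (A' t)] [∀ t, Algebra k (A' t)] (C' : ∀ t, NDga k (A' t))
    {Q : ℝ → Type u₃} [∀ t, Ring (Q t)] [∀ t, Algebra k (Q t)] (O : ∀ t, NDga k (Q t))
    (σ : ∀ s t, t ≤ s → NDga.Hom (O s) (O t))
    (φ : ∀ t, NDga.Hom (C t) (O t)) (φ' : ∀ t, NDga.Hom (C' t) (O t))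
    (φ_ρ : ∀ s t h a, (φ t).f ((ρ s t h).f a) = (σ s t h).f ((φ s).f a))
    (j : ∀ t, NDga.Hom (C t) (C' t)) (φ'_j : ∀ t a, (φ' t).f ((j t).f a) = (φ t).f a)
    (y₁ y₂ : ∀ t, A t) (hy₁ : ∀ s t h, (ρ s t h).f (y₁ s) = y₁ t)
    (hy₂ : ∀ s t h, (ρ s t h).f (y₂ s) = y₂ t)
    (hc₁ : ∀ t a, (C t).sg a = a → y₁ t * a = a * y₁ t)
    (hc₂ : ∀ t a, (C' t).sg a = a → (j t).f (y₂ t) * a = a * (j t).f (y₂ t))
    (b : ∀ t, A' t) (hb : ∀ t, b t ∈ (C' t).deg p)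
    (hdb : ∀ t, (C' t).d (b t) = (j t).f (y₁ t)) (φ'_b : ∀ t, (φ' t).f (b t) = 0)
    (h1 : ∀ t, (1 : Q t) ≠ 0) {c t₀ : ℝ} (hc : 0 ≤ c)
    (hP₁ : ∀ s t (h : t + c ≤ s), t₀ ≤ t →
      PushAt (φ s) (σ s t ((le_add_of_nonneg_right hc).trans h)) (y₁ s) p)
    (hP₂ : ∀ s t (h : t + c ≤ s), t₀ ≤ t →
      PushAt (φ' s) (σ s t ((le_add_of_nonneg_right hc).trans h)) ((j s).f (y₂ s)) q) :
    ∀ (N : ℕ) (t : ℝ), t₀ + c * N ≤ t → ∀ β₁ β₂ : A t, β₁ ∈ (C t).deg p → β₂ ∈ (C t).deg q →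
      (C t).d β₁ = y₁ t → (C t).d β₂ = y₂ t →
      NIndep (O t) ((φ t).f β₁) ((φ t).f β₂) p q N :=
  f_out' hp hq C ρ C' O σ φ φ' φ_ρ j φ'_j y₁ y₂ hy₁ hy₂ hc₁ hc₂ b hb hdb φ'_b
    (fun t _ => h1 t) hc hP₁ hP₂

end Vale.Agent.P216.V670
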