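import Vale.Agent.P216.V670.Push
import Vale.Agent.P216.V670.FOut

/-!
# P216-V, block (F): the abstract top

`Ger S G O σ gr`: the germs `G t`, `O t` of the system `S`. `Eta S e`: the class `η` of degree
`e + 1` on the base. `hInd_of`: from two systems with finite loss, over `B(M)` and over `B(M)[b]`,
with the same based loops, to the independence of the monomials.
-/

open Finset

namespace Vale.Agent.P216.V670

open V609 H923G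

universe w u₁ u₂ u₃ v u₁' u₂' u₃' v' x₁ x₂ x₃

/-- The germs of a `PSys`. -/
structure Ger {k : Type w} [Field k] {ι : Type v} [Preorder ι] (S : PSys.{w, u₁, u₂, u₃, v} k ι)
    {A : ℝ → Type x₁} [∀ t, Ring (A t)] [∀ t, Algebra k (A t)] (G : ∀ t, NDga k (A t))
    {Q : ℝ → Type x₂} [∀ t, Ring (Q t)] [∀ t, Algebra k (Q t)] (O : ∀ t, NDga k (Q t))
    (σ : ∀ s t, t ≤ s → NDga.Hom (O s) (O t)) (gr : ∀ t, NDga.Hom (G t) (O t)) where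
  γ : ∀ t i, NDga.Hom (S.D t i) (G t)
  γO : ∀ t i, NDga.Hom (S.O t i) (O t)
  col : ∀ t, IsCol (S.D t) (fun i j h => S.r t t i j le_rfl h) (G t) (γ t)
  colO : ∀ t, IsCol (S.O t) (fun i j h => S.σ t t i j le_rfl h) (O t) (γO t)
  gr_γ : ∀ t i w, (gr t).f ((γ t i).f w) = (γO t i).f ((S.rO t i).f w)
  σ_γ : ∀ s t h i j (hij : i ≤ j) w,
    (σ s t h).f ((γO s i).f w) = (γO t j).f ((S.σ s t i j h hij).f w)
  σσ : ∀ t i j l h h' w, (S.σ t t j l le_rfl h').f ((S.σ t t i j le_rfl h).f w) =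
    (S.σ t t i l le_rfl (h.trans h')).f w

/-- The class on the base which acts. -/
structure Eta {k : Type w} [Field k] {ι : Type v} [Preorder ι] (S : PSys.{w, u₁, u₂, u₃, v} k ι)
    (e : ℕ) where
  η : ∀ i, S.B i
  deg : ∀ i, η i ∈ (S.C i).deg (e + 1)
  β : ∀ i j h, (S.β i j h).f (η i) = η j
  ne : ∀ i, ∀ b ∈ (S.C i).deg e, (S.C i).d b ≠ η i
  pos : 0 < e
  ex : S.Bex e
  z : S.Bz

section

variable {k : Type w} [Field k] {ι : Type v} [Preorder ι] [IsDirectedOrder ι] [Nonempty ι]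
  {S : PSys.{w, u₁, u₂, u₃, v} k ι}
  {A : ℝ → Type x₁} [∀ t, Ring (A t)] [∀ t, Algebra k (A t)] {G : ∀ t, NDga k (A t)}
  {Q : ℝ → Type x₂} [∀ t, Ring (Q t)] [∀ t, Algebra k (Q t)] {O : ∀ t, NDga k (Q t)}
  {σ : ∀ s t, t ≤ s → NDga.Hom (O s) (O t)} {gr : ∀ t, NDga.Hom (G t) (O t)}

/-- PUSH on germs, bundled -/
theorem Ger.pushAt (H : Ger S G O σ gr) {e : ℕ} (E : Eta S e) {t₀ c : ℝ} (hL : S.Loss t₀ c)
    {s t : ℝ} (h : t ≤ s) (hs : t + c * (e + 1) ≤ s) (ht : t₀ ≤ t) {y : A s}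
    (hy : ∀ i, (H.γ s i).f ((S.φ s i).f (E.η i)) = y) :
    PushAt (gr s) (σ s t h) y e :=
  PSys.pushAt hL E.ex E.z E.pos E.η E.deg E.β E.ne h hs ht (H.σσ s) (H.col s) (H.colO s)
    (gr s) (σ s t h) (H.gr_γ s) (fun i j hij w => H.σ_γ s t h i j hij w) hy

variable {ι' : Type v'} [Preorder ι'] [IsDirectedOrder ι'] [Nonempty ι']
  {S' : PSys.{w, u₁', u₂', u₃', v'} k ι'}
  {A' : ℝ → Type x₃} [∀ t, Ring (A' t)] [∀ t, Algebra k (A' t)] {G' : ∀ t, NDga k (A' t)}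
  {gr' : ∀ t, NDga.Hom (G' t) (O t)}

/-- **(F)**: the conclusion `hInd`. -/
theorem hInd_of' [CharZero k] {p q : ℕ} (hp : Even p) (hq : Even q)
    (H : Ger S G O σ gr) (H' : Ger S' G' O σ gr') (E : Eta S p) (E' : Eta S' q) {t₀ c : ℝ}
    (hL : S.Loss t₀ c) (hL' : S'.Loss t₀ c)
    (ρ : ∀ s t, t ≤ s → NDga.Hom (G s) (G t))
    (gr_ρ : ∀ s t h a, (gr t).f ((ρ s t h).f a) = (σ s t h).f ((gr s).f a))
    (j : ∀ t, NDga.Hom (G t) (G' t)) (gr'_j : ∀ t a, (gr' t).f ((j t).f a) = (gr t).f a)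
    (y₁ y₂ : ∀ t, A t) (hy₁ : ∀ s t h, (ρ s t h).f (y₁ s) = y₁ t)
    (hy₂ : ∀ s t h, (ρ s t h).f (y₂ s) = y₂ t)
    (hc₁ : ∀ t a, (G t).sg a = a → y₁ t * a = a * y₁ t)
    (hc₂ : ∀ t a, (G' t).sg a = a → (j t).f (y₂ t) * a = a * (j t).f (y₂ t))
    (b : ∀ t, A' t) (hb : ∀ t, b t ∈ (G' t).deg p)
    (hdb : ∀ t, (G' t).d (b t) = (j t).f (y₁ t)) (gr'_b : ∀ t, (gr' t).f (b t) = 0)
    (h1 : ∀ t, t₀ ≤ t → (1 : Q t) ≠ 0)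
    (hγ₁ : ∀ t i, (H.γ t i).f ((S.φ t i).f (E.η i)) = y₁ t)
    (hγ₂ : ∀ t i, (H'.γ t i).f ((S'.φ t i).f (E'.η i)) = (j t).f (y₂ t)) :
    ∃ b₀ : ℝ, ∀ (N : ℕ) (t : ℝ), b₀ * (N + 1) ≤ t → ∀ β₁ ∈ (G t).deg p, ∀ β₂ ∈ (G t).deg q,
      (G t).d β₁ = y₁ t → (G t).d β₂ = y₂ t →
      NIndep (O t) ((gr t).f β₁) ((gr t).f β₂) p q N := by
  have hc := hL.nonneg
  set m : ℕ := max p q with hm
  have hm1 : (p : ℝ) ≤ m := by exact_mod_cast le_max_left p q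
  have hm2 : (q : ℝ) ≤ m := by exact_mod_cast le_max_right p q
  set c' : ℝ := c * (m + 1) with hc'
  have hc'0 : 0 ≤ c' := by positivity
  have e1 : c * (p + 1) ≤ c' := mul_le_mul_of_nonneg_left (by linarith) hc
  have e2 : c * (q + 1) ≤ c' := mul_le_mul_of_nonneg_left (by linarith) hc
  refine ⟨max t₀ c', fun N t ht β₁ hβ₁ β₂ hβ₂ h3 h4 => ?_⟩
  have ht' : t₀ + c' * N ≤ t := by
    have h5 : c' * N ≤ max t₀ c' * N :=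
      mul_le_mul_of_nonneg_right (le_max_right _ _) (Nat.cast_nonneg N)
    have h6 := le_max_left t₀ c'
    nlinarith
  exact f_out' hp hq G ρ G' O σ gr gr' gr_ρ j gr'_j y₁ y₂ hy₁ hy₂ hc₁ hc₂ b hb hdb gr'_b h1
    hc'0 (fun s t h h0 => H.pushAt E hL _ (by linarith) h0 (hγ₁ s))
    (fun s t h h0 => H'.pushAt E' hL' _ (by linarith) h0 (hγ₂ s)) N t ht' β₁ β₂ hβ₁ hβ₂ h3 h4

/-- `hInd_of'` with `1 ≠ 0` at all levels -/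
theorem hInd_of [CharZero k] {p q : ℕ} (hp : Even p) (hq : Even q)
    (H : Ger S G O σ gr) (H' : Ger S' G' O σ gr') (E : Eta S p) (E' : Eta S' q) {t₀ c : ℝ}
    (hL : S.Loss t₀ c) (hL' : S'.Loss t₀ c)
    (ρ : ∀ s t, t ≤ s → NDga.Hom (G s) (G t))
    (gr_ρ : ∀ s t h a, (gr t).f ((ρ s t h).f a) = (σ s t h).f ((gr s).f a))
    (j : ∀ t, NDga.Hom (G t) (G' t)) (gr'_j : ∀ t a, (gr' t).f ((j t).f a) = (gr t).f a)
    (y₁ y₂ : ∀ t, A t) (hy₁ : ∀ s t h, (ρ s t h).f (y₁ s) = y₁ t)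
    (hy₂ : ∀ s t h, (ρ s t h).f (y₂ s) = y₂ t)
    (hc₁ : ∀ t a, (G t).sg a = a → y₁ t * a = a * y₁ t)
    (hc₂ : ∀ t a, (G' t).sg a = a → (j t).f (y₂ t) * a = a * (j t).f (y₂ t))
    (b : ∀ t, A' t) (hb : ∀ t, b t ∈ (G' t).deg p)
    (hdb : ∀ t, (G' t).d (b t) = (j t).f (y₁ t)) (gr'_b : ∀ t, (gr' t).f (b t) = 0)
    (h1 : ∀ t, (1 : Q t) ≠ 0)
    (hγ₁ : ∀ t i, (H.γ t i).f ((S.φ t i).f (E.η i)) = y₁ t)
    (hγ₂ : ∀ t i, (H'.γ t i).f ((S'.φ t i).f (E'.η i)) = (j t).f (y₂ t)) :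
    ∃ b₀ : ℝ, ∀ (N : ℕ) (t : ℝ), b₀ * (N + 1) ≤ t → ∀ β₁ ∈ (G t).deg p, ∀ β₂ ∈ (G t).deg q,
      (G t).d β₁ = y₁ t → (G t).d β₂ = y₂ t →
      NIndep (O t) ((gr t).f β₁) ((gr t).f β₂) p q N :=
  hInd_of' hp hq H H' E E' hL hL' ρ gr_ρ j gr'_j y₁ y₂ hy₁ hy₂ hc₁ hc₂ b hb hdb gr'_b
    (fun t _ => h1 t) hγ₁ hγ₂

end

end Vale.Agent.P216.V670
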