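import Vale.Agent.P231.H584.Ops
import Vale.Agent.P231.Fm.Cont

/-!
# Smooth forms on simplicial complexes

`Cx X` is an abstract simplicial complex on the set `X`; `dif C` is the diffeology on `X →₀ ℝ`
whose plots lie locally in the affine hull of one simplex; `Form (dif C)` is the algebra of
compatible families of smooth forms on the affine hulls of the simplices.
-/

set_option linter.unusedSectionVars false
set_option linter.unusedVariables false

open Set Filter Topology Module
open scoped ContDiff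

namespace Vale.Agent.P216.V670

open Vale.Agent.P231 Vale.Agent.P231.Fm

/-- an abstract simplicial complex: a family of finite sets -/
structure Cx (X : Type) where
  /-- the simplices -/
  mem : Finset X → Prop
  /-- faces are simplices -/
  sub : ∀ {F G : Finset X}, F ⊆ G → mem G → mem F

variable {X Y Z P : Type}

/-- the plots lie locally in the affine hull of a simplex -/
def dif (C : Cx X) : Dif (X →₀ ℝ) where
  At {E} _ _ _ u e := ∃ F, C.mem F ∧ (∀ᶠ y in 𝓝 e, (u y).support ⊆ F ∧
    ∑ x ∈ F, u y x = 1) ∧ ∀ x ∈ F, Sm (fun y => u y x) e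
  open' := by
    rintro E _ _ _ u e ⟨F, hF, h1, h2⟩
    have h3 : ∀ᶠ y in 𝓝 e, ∀ x ∈ F, Sm (fun y => u y x) y :=
      (Finset.eventually_all F).2 fun x hx => (h2 x hx).eventually
    filter_upwards [eventually_eventually_nhds.2 h1, h3] with y h4 h5
    exact ⟨F, hF, h4, h5⟩
  congr := by
    rintro E _ _ _ u v e ⟨F, hF, h1, h2⟩ huv
    refine ⟨F, hF, ?_, fun x hx => (h2 x hx).congr ?_⟩
    · filter_upwards [h1, huv] with y h3 h4
      rwa [← h4]
    · filter_upwards [huv] with y h4
      rw [h4]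
  comp := by
    rintro E E' _ _ _ _ _ _ u g e ⟨F, hF, h1, h2⟩ hg
    exact ⟨F, hF, hg.continuousAt.eventually h1, fun x hx => Sm.comp (h2 x hx) hg⟩

section At

variable {C : Cx X} {E : Type} [NormedAddCommGroup E] [NormedSpace ℝ E] [FiniteDimensional ℝ E]
  {u : E → X →₀ ℝ} {e : E}

/-- a larger family of simplices -/
theorem At_mono {C' : Cx X} (h : ∀ F, C.mem F → C'.mem F) (hu : (dif C).At u e) :
    (dif C').At u e := by
  obtain ⟨F, hF, h1⟩ := hu
  exact ⟨F, h F hF, h1⟩

theorem At_coord (hu : (dif C).At u e) (x : X) : Sm (fun y => u y x) e := by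
  classical
  obtain ⟨F, hF, h1, h2⟩ := hu
  by_cases hx : x ∈ F
  · exact h2 x hx
  · refine (Sm.of_contDiff (contDiff_const (c := (0 : ℝ))) e).congr ?_
    filter_upwards [h1] with y hy
    by_contra h
    exact hx (hy.1 (Finsupp.mem_support_iff.2 (Ne.symm h)))

end At

/-- the sum of the coordinates over a finite set containing the support -/
theorem sum_of_subset {F G : Finset X} (h : F ⊆ G) {μ : X →₀ ℝ} (hμ : μ.support ⊆ F) :
    ∑ x ∈ G, μ x = ∑ x ∈ F, μ x :=
  (Finset.sum_subset h fun x _ hx => by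
    by_contra h'
    exact hx (hμ (Finsupp.mem_support_iff.2 h'))).symm

theorem dirac_At {C : Cx X} {E : Type} [NormedAddCommGroup E] [NormedSpace ℝ E]
    [FiniteDimensional ℝ E] {x : X} (hx : C.mem {x}) (e : E) :
    (dif C).At (fun _ : E => Finsupp.single x (1 : ℝ)) e :=
  ⟨{x}, hx, Eventually.of_forall fun _ => ⟨Finsupp.support_single_subset, by simp⟩,
    fun _ _ => Sm.of_contDiff contDiff_const _⟩

/-! ### barycentric maps -/

/-- extend `g : X → P → |Y|` linearly to `|X| × P → |Y|` -/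
noncomputable def bary (g : X → P → (Y →₀ ℝ)) (p : (X →₀ ℝ) × P) : Y →₀ ℝ :=
  p.1.sum fun x r => r • g x p.2

theorem bary_apply {g : X → P → (Y →₀ ℝ)} {p : (X →₀ ℝ) × P} {F : Finset X}
    (hF : p.1.support ⊆ F) (z : Y) : bary g p z = ∑ x ∈ F, p.1 x * g x p.2 z := by
  rw [bary, Finsupp.sum, Finsupp.finsetSum_apply]
  exact Finset.sum_subset hF fun x _ hx => by
    simp only [Finsupp.smul_apply, smul_eq_mul]
    rw [Finsupp.notMem_support_iff.1 hx, zero_mul]

/-- the criterion for smoothness of barycentric maps -/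
def Good (C : Cx X) (C' : Cx Y) (D : Dif P) (g : X → P → (Y →₀ ℝ)) : Prop :=
  ∀ F, C.mem F → ∀ {E : Type} [NormedAddCommGroup E] [NormedSpace ℝ E] [FiniteDimensional ℝ E]
    (v : E → P) (e : E), D.At v e → ∃ G, C'.mem G ∧ ∀ x ∈ F,
      (∀ᶠ y in 𝓝 e, (g x (v y)).support ⊆ G ∧ ∑ z ∈ G, g x (v y) z = 1) ∧
      ∀ z ∈ G, Sm (fun y => g x (v y) z) e

theorem Sm_sum {ι E : Type} [NormedAddCommGroup E] [NormedSpace ℝ E] {s : Finset ι}
    {f : ι → E → ℝ} {e : E} (h : ∀ i ∈ s, Sm (f i) e) : Sm (fun y => ∑ i ∈ s, f i y) e := by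
  have h1 : ∀ᶠ y in 𝓝 e, ∀ i ∈ s, ContDiffAt ℝ ∞ (f i) y := (Finset.eventually_all s).2 h
  filter_upwards [h1] with y hy
  exact ContDiffAt.sum fun i hi => hy i hi

theorem Sm_mul {E : Type} [NormedAddCommGroup E] [NormedSpace ℝ E]
    {f g : E → ℝ} {e : E} (hf : Sm f e) (hg : Sm g e) : Sm (fun y => f y * g y) e := by
  filter_upwards [hf, hg] with y h1 h2 using h1.mul h2

theorem map_bary {C : Cx X} {C' : Cx Y} {D : Dif P} {g : X → P → (Y →₀ ℝ)}
    (hg : Good C C' D g) : ((dif C).prod D).Map (dif C') (bary g) := by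
  classical
  intro E _ _ _ w e hw
  obtain ⟨⟨F, hF, h1, h2⟩, h3⟩ := hw
  obtain ⟨G, hG, h4⟩ := hg F hF _ _ h3
  have h5 : ∀ᶠ y in 𝓝 e, ∀ x ∈ F, (g x (w y).2).support ⊆ G ∧ ∑ z ∈ G, g x (w y).2 z = 1 :=
    (Finset.eventually_all F).2 fun x hx => (h4 x hx).1
  refine ⟨G, hG, ?_, fun z hz => ?_⟩
  · filter_upwards [h1, h5] with y h6 h7
    constructor
    · intro z hz
      by_contra hzG
      refine Finsupp.mem_support_iff.1 hz ?_
      rw [Function.comp_apply, bary_apply h6.1]
      refine Finset.sum_eq_zero fun x hx => ?_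
      have : g x (w y).2 z = 0 := by
        by_contra h8
        exact hzG ((h7 x hx).1 (Finsupp.mem_support_iff.2 h8))
      rw [this, mul_zero]
    · have h8 : ∀ z ∈ G, (bary g ∘ w) y z = ∑ x ∈ F, (w y).1 x * g x (w y).2 z :=
        fun z _ => by rw [Function.comp_apply, bary_apply h6.1]
      rw [Finset.sum_congr rfl h8, Finset.sum_comm, ← h6.2]
      refine Finset.sum_congr rfl fun x hx => ?_
      rw [← Finset.mul_sum, (h7 x hx).2, mul_one]
  · refine Sm.congr (f := fun y => ∑ x ∈ F, (w y).1 x * g x (w y).2 z) ?_ ?_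
    · exact Sm_sum fun x hx => Sm_mul (h2 x hx) ((h4 x hx).2 z hz)
    · filter_upwards [h1] with y h6
      rw [Function.comp_apply, bary_apply h6.1]

/-- push forward -/
noncomputable def push (f : X → Y) (μ : X →₀ ℝ) : Y →₀ ℝ := μ.mapDomain f

theorem push_apply (f : X → Y) {μ : X →₀ ℝ} {F : Finset X} (hF : μ.support ⊆ F) (z : Y)
    [DecidableEq Y] : push f μ z = ∑ x ∈ F, if f x = z then μ x else 0 := by
  classical
  have h1 : push f μ = bary (P := Unit) (fun x _ => Finsupp.single (f x) (1 : ℝ)) (μ, ()) := by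
    rw [push, Finsupp.mapDomain, bary]
    refine Finsupp.sum_congr fun x _ => ?_
    rw [Finsupp.smul_single, smul_eq_mul, mul_one]
  rw [h1, bary_apply (p := (μ, ())) hF]
  refine Finset.sum_congr rfl fun x _ => ?_
  change μ x * (Finsupp.single (f x) (1 : ℝ)) z = _
  rw [Finsupp.single_apply]
  split_ifs <;> simp

theorem map_push {C : Cx X} {C' : Cx Y} {f : X → Y}
    (hf : ∀ F, C.mem F → ∃ G, C'.mem G ∧ ∀ x ∈ F, f x ∈ G) : (dif C).Map (dif C') (push f) := by
  classical
  intro E _ _ _ u e hu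
  obtain ⟨F, hF, h1, h2⟩ := hu
  obtain ⟨G, hG, h3⟩ := hf F hF
  refine ⟨G, hG, ?_, fun z hz => ?_⟩
  · filter_upwards [h1] with y h4
    constructor
    · intro z hz
      by_contra hzG
      refine Finsupp.mem_support_iff.1 hz ?_
      rw [Function.comp_apply, push_apply f h4.1]
      refine Finset.sum_eq_zero fun x hx => ?_
      rw [if_neg]
      rintro rfl
      exact hzG (h3 x hx)
    · have h8 : ∀ z ∈ G, (push f ∘ u) y z = ∑ x ∈ F, if f x = z then u y x else 0 :=
        fun z _ => by rw [Function.comp_apply, push_apply f h4.1]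
      rw [Finset.sum_congr rfl h8, Finset.sum_comm, ← h4.2]
      refine Finset.sum_congr rfl fun x hx => ?_
      rw [Finset.sum_ite_eq, if_pos (h3 x hx)]
  · refine Sm.congr (f := fun y => ∑ x ∈ F, if f x = z then u y x else 0) ?_ ?_
    · refine Sm_sum fun x hx => ?_
      by_cases h : f x = z
      · simpa only [if_pos h] using h2 x hx
      · simpa only [if_neg h] using Sm.of_contDiff contDiff_const e
    · filter_upwards [h1] with y h6
      rw [Function.comp_apply, push_apply f h6.1]

theorem push_dirac (f : X → Y) (x : X) (r : ℝ) :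
    push f (Finsupp.single x r) = Finsupp.single (f x) r := Finsupp.mapDomain_single

/-! ### cones -/

/-- `(μ, s) ↦ (1 - s) μ + s δ_y` -/
noncomputable def cone (y : X) (p : (X →₀ ℝ) × ℝ) : X →₀ ℝ :=
  (1 - p.2) • p.1 + p.2 • Finsupp.single y 1

theorem cone_apply (y : X) (p : (X →₀ ℝ) × ℝ) (z : X) :
    cone y p z = (1 - p.2) * p.1 z + p.2 * Finsupp.single y (1 : ℝ) z := by
  rw [cone, Finsupp.add_apply, Finsupp.smul_apply, Finsupp.smul_apply, smul_eq_mul, smul_eq_mul]

theorem map_cone {C C' : Cx X} {y : X}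
    (h : ∀ F, C.mem F → ∃ G, C'.mem G ∧ F ⊆ G ∧ y ∈ G) :
    ((dif C).prod (Dif.lin ℝ)).Map (dif C') (cone y) := by
  classical
  intro E _ _ _ w e hw
  obtain ⟨⟨F, hF, h1, h2⟩, h3⟩ := hw
  obtain ⟨G, hG, h4, h5⟩ := h F hF
  refine ⟨G, hG, ?_, fun z hz => ?_⟩
  · filter_upwards [h1] with a h6
    constructor
    · intro z hz
      by_contra hzG
      refine Finsupp.mem_support_iff.1 hz ?_
      rw [Function.comp_apply, cone_apply]
      have h7 : (w a).1 z = 0 := by
        by_contra h8
        exact hzG (h4 (h6.1 (Finsupp.mem_support_iff.2 h8)))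
      have h8 : (Finsupp.single y (1 : ℝ)) z = 0 := by
        rw [Finsupp.single_apply, if_neg]
        rintro rfl
        exact hzG h5
      rw [h7, h8, mul_zero, mul_zero, add_zero]
    · simp only [Function.comp_apply, cone_apply]
      rw [Finset.sum_add_distrib, ← Finset.mul_sum, ← Finset.mul_sum,
        sum_of_subset h4 h6.1, h6.2]
      have h7 : ∑ z ∈ G, (Finsupp.single y (1 : ℝ)) z = 1 := by
        simp only [Finsupp.single_apply]
        rw [Finset.sum_ite_eq, if_pos h5]
      rw [h7]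
      ring
  · have h6 : Sm (fun a => (w a).1 z) e := At_coord ⟨F, hF, h1, h2⟩ z
    have h7 : Sm (fun a => (w a).2) e := h3
    have h8 : Sm (fun a => 1 - (w a).2) e :=
      Sm.comp (f := fun r : ℝ => 1 - r) (g := fun a => (w a).2)
        (Sm.of_contDiff (contDiff_const.sub contDiff_id) _) h7
    have h9 : Sm (fun a => (w a).2 * (Finsupp.single y (1 : ℝ)) z) e :=
      Sm_mul h7 (Sm.of_contDiff contDiff_const _)
    have h10 := Sm_mul h8 h6
    filter_upwards [h9, h10] with a h11 h12
    have := h12.add h11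
    refine this.congr_of_eventuallyEq (Eventually.of_forall fun b => ?_)
    exact cone_apply y (w b) z

theorem cone_zero (y : X) (μ : X →₀ ℝ) : cone y (μ, 0) = μ := by simp [cone]

theorem cone_one (y : X) (μ : X →₀ ℝ) : cone y (μ, 1) = Finsupp.single y 1 := by simp [cone]

theorem push_cone (f : X → Y) (y : X) (μ : X →₀ ℝ) (s : ℝ) :
    push f (cone y (μ, s)) = cone (f y) (push f μ, s) := by
  simp only [push, cone, Finsupp.mapDomain_add, Finsupp.mapDomain_smul, Finsupp.mapDomain_single]

end Vale.Agent.P216.V670
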