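import Vale.Agent.P216.V670.Cx
import Vale.Agent.P216.N929.Fib0

/-!
# Integration of forms over the simplices: a chain map from forms to functions on lists
-/

set_option linter.unusedSectionVars false
set_option linter.unusedVariables false

open Set Filter Topology Module
open scoped ContDiff

namespace Vale.Agent.P216.V670

open Vale.Agent.P231 Vale.Agent.P231.Fm Vale.Agent.P216.Sl

variable {X Y Z P : Type}

/-! ### values at points -/

section Pv

variable {X' Y' : Type} {D : Dif X'} {D' : Dif Y'}

/-- the space `ℝ^0` -/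
abbrev R0 : Type := Fin 0 → ℝ

/-- the value of the degree zero part at a point -/
noncomputable def pv (a : Form D) (z : X') : ℝ := aug (a.val (fun _ : R0 => z) 0)

theorem pv_add (a b : Form D) (z : X') : pv (a + b) z = pv a z + pv b z := by
  rw [pv, Form.add_val, map_add]; rfl

theorem pv_sub (a b : Form D) (z : X') : pv (a - b) z = pv a z - pv b z := by
  rw [pv, Form.sub_val, map_sub]; rfl

theorem pv_neg (a : Form D) (z : X') : pv (-a) z = -pv a z := by
  rw [pv, Form.neg_val, map_neg]; rfl

theorem pv_smul (c : ℝ) (a : Form D) (z : X') : pv (c • a) z = c * pv a z := by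
  rw [pv, Form.smul_val, map_smul]; rfl

theorem pv_zero (z : X') : pv (0 : Form D) z = 0 := by
  rw [pv, Form.zero_val, map_zero]

theorem pv_mul (a b : Form D) (z : X') : pv (a * b) z = pv a z * pv b z := by
  rw [pv, Form.mul_val, map_mul]; rfl

theorem pv_one {z : X'} (h : D.At (fun _ : R0 => z) 0) : pv (1 : Form D) z = 1 := by
  rw [pv, Form.one_val h, map_one]

theorem pv_d (a : Form D) (z : X') : pv a.d z = 0 := by
  by_cases h : D.At (fun _ : R0 => z) 0
  · rw [pv, Form.d_val _ h]
    exact aug_dLin _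
  · rw [pv, Form.junk _ h, map_zero]

/-- `pv` as a linear map -/
noncomputable def pvL (z : X') : Form D →ₗ[ℝ] ℝ where
  toFun a := pv a z
  map_add' a b := pv_add a b z
  map_smul' c a := pv_smul c a z

theorem lam_zero_dim (w : Lam R0) : w = algebraMap ℝ (Lam R0) (aug w) := by
  induction w using Lam.ind with
  | h1 r => rw [AlgHom.commutes]; rfl
  | h2 a =>
    have : a = 0 := by
      refine ContinuousLinearMap.ext fun x => ?_
      rw [Subsingleton.elim x 0, map_zero, map_zero]
    rw [this, map_zero, map_zero, map_zero]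
  | h3 a b ha hb => rw [map_mul, map_mul, ← ha, ← hb]
  | h4 a b ha hb => rw [map_add, map_add, ← ha, ← hb]

theorem pull_const (z : Y') (h : D.Map D' (fun _ => z)) (a : Form D') :
    Form.pull (fun _ => z) h a = pv a z • 1 := Form.ext_val fun E _ _ _ u x hu => by
  rw [Form.pull_val h _ hu, Form.smul_val, Form.one_val hu]
  have h1 : ((fun _ : X' => z) ∘ u) = (fun _ : R0 => z) ∘ (fun _ : E => (0 : R0)) := rfl
  have h0 : D'.At (fun _ : E => z) x := h hu
  have h2 : D'.At (fun _ : R0 => z) 0 := Dif.At_const (u := fun _ : E => z) h0 (0 : R0)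
  rw [h1, a.nat (u := fun _ : R0 => z) (g := fun _ : E => (0 : R0)) (x := x) h2
    (Sm.of_contDiff contDiff_const _), lam_zero_dim (a.val _ _), AlgHom.commutes,
    Algebra.algebraMap_eq_smul_one]
  rfl

theorem pv_pull {f : X' → Y'} (hf : D.Map D' f) (a : Form D') {z : X'}
    (h : D.At (fun _ : R0 => z) 0) : pv (Form.pull f hf a) z = pv a (f z) := by
  rw [pv, Form.pull_val hf _ h]
  rfl

theorem pullS {f : X' → Y'} (hf : D.Map D' f) (c : ℝ) (a : Form D') :
    Form.pull f hf (c • a) = c • Form.pull f hf a := map_smul (Form.pullA f hf) c a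

theorem pullAdd {f : X' → Y'} (hf : D.Map D' f) (a b : Form D') :
    Form.pull f hf (a + b) = Form.pull f hf a + Form.pull f hf b := map_add (Form.pullA f hf) a b

theorem pullOne {f : X' → Y'} (hf : D.Map D' f) :
    Form.pull f hf (1 : Form D') = 1 := map_one (Form.pullA f hf)

theorem K_one : Form.K (1 : Form (D.prod (Dif.lin ℝ))) = 0 := by
  have h : Form.K (Form.pull (Prod.fst : X' × ℝ → X') (Dif.map_fst (D := D) (D' := Dif.lin ℝ))
    (1 : Form D)) = 0 := H584.K_pr (1 : Form D)
  rwa [pullOne] at h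

end Pv

/-! ### the full simplex on a set -/

/-- all finite subsets of `S` -/
def full (S : Set X) : Cx X where
  mem F := ∀ x ∈ F, x ∈ S
  sub h hG x hx := hG x (h hx)

theorem full_ins {S : Set X} {y : X} (hy : y ∈ S) (F : Finset X) (hF : (full S).mem F) :
    ∃ G, (full S).mem G ∧ F ⊆ G ∧ y ∈ G := by
  classical
  exact ⟨insert y F, fun x hx => (Finset.mem_insert.1 hx).elim (fun h => h ▸ hy) (hF x),
    Finset.subset_insert _ _, Finset.mem_insert_self _ _⟩

open Classical in
/-- the cone operator -/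
noncomputable def Ky (S : Set X) (y : X) : Form (dif (full S)) →ₗ[ℝ] Form (dif (full S)) :=
  if h : y ∈ S then
    { toFun := fun a => Form.K (Form.pull (cone y) (map_cone (full_ins h)) a)
      map_add' := fun a b => by rw [pullAdd, Form.K_add]
      map_smul' := fun c a => by rw [pullS, Form.K_smul]; rfl }
  else 0

theorem Ky_apply {S : Set X} {y : X} (h : y ∈ S) (a : Form (dif (full S))) :
    Ky S y a = Form.K (Form.pull (cone y) (map_cone (full_ins h)) a) := by
  rw [Ky, dif_pos h]; rfl

theorem Ky_one {S : Set X} {y : X} : Ky S y (1 : Form (dif (full S))) = 0 := by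
  by_cases h : y ∈ S
  · rw [Ky_apply h, pullOne, K_one]
  · rw [Ky, dif_neg h]; rfl

theorem dirac_plot {S : Set X} {y : X} (h : y ∈ S) {E : Type} [NormedAddCommGroup E]
    [NormedSpace ℝ E] [FiniteDimensional ℝ E] (e : E) :
    (dif (full S)).At (fun _ : E => Finsupp.single y (1 : ℝ)) e :=
  dirac_At (fun x hx => by rw [Finset.mem_singleton.1 hx]; exact h) e

theorem Ky_d {S : Set X} {y : X} (h : y ∈ S) (a : Form (dif (full S))) :
    Ky S y a.d = pv a (Finsupp.single y 1) • 1 - a - (Ky S y a).d := by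
  have h1 := Form.homotopy (Form.pull (cone y) (map_cone (full_ins h)) a)
  rw [Ky_apply h, Ky_apply h]
  have h2 : (dif (full S)).Map (dif (full S)) (fun _ => Finsupp.single y (1 : ℝ)) :=
    fun {E} _ _ _ {u x} _ => dirac_plot h x
  rw [H584.pull_pull (Form.map_slice 1) (map_cone (full_ins h)) h2 (fun x => cone_one y x),
    H584.pull_pull (Form.map_slice 0) (map_cone (full_ins h)) Dif.map_id
      (fun x => cone_zero y x), Form.pull_id, pull_const, ← Form.pull_d] at h1
  rw [h1]
  abel

/-- iterated cones: `Kl S [x₁, …, x_q] = K_{x₁} ∘ ⋯ ∘ K_{x_q}` -/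
noncomputable def Kl (S : Set X) : List X → Form (dif (full S)) →ₗ[ℝ] Form (dif (full S))
  | [] => LinearMap.id
  | x :: xs => Ky S x ∘ₗ Kl S xs

theorem Kl_nil {S : Set X} (a : Form (dif (full S))) : Kl S [] a = a := rfl

theorem Kl_cons {S : Set X} (x : X) (xs : List X) (a : Form (dif (full S))) :
    Kl S (x :: xs) a = Ky S x (Kl S xs a) := rfl

/-- integration over the oriented simplex of a list, up to sign -/
noncomputable def J (S : Set X) (a : Form (dif (full S))) : List X → ℝ
  | [] => 0
  | x :: xs => pv (Kl S xs a) (Finsupp.single x 1)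

theorem J_cons {S : Set X} (a : Form (dif (full S))) (x : X) (xs : List X) :
    J S a (x :: xs) = pv (Kl S xs a) (Finsupp.single x 1) := rfl

/-- linear extension of a function on lists -/
noncomputable def evV {V : Type*} [AddCommGroup V] [Module ℝ V] (F : List X → V) :
    Ch ℝ X →ₗ[ℝ] V := Finsupp.linearCombination ℝ F

theorem evV_single {V : Type*} [AddCommGroup V] [Module ℝ V] (F : List X → V) (l : List X)
    (r : ℝ) : evV F (Finsupp.single l r) = r • F l := by
  rw [evV, Finsupp.linearCombination_single]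

theorem evV_cons {V : Type*} [AddCommGroup V] [Module ℝ V] {F : List X → V} {x : X}
    {T : V →ₗ[ℝ] V} (h : ∀ l, F (x :: l) = T (F l)) (c : Ch ℝ X) :
    evV F (cons x c) = T (evV F c) := by
  have h1 : (evV F).comp (cons x) = T.comp (evV F) := Finsupp.lhom_ext fun l r => by
      rw [LinearMap.comp_apply, cons_single, evV_single, LinearMap.comp_apply, evV_single, h,
        map_smul]
  exact DFunLike.congr_fun h1 c

theorem Kl_d {S : Set X} (a : Form (dif (full S))) : ∀ (xs : List X) (x : X),
    (∀ z ∈ x :: xs, z ∈ S) → Kl S (x :: xs) a.d = (-1 : ℝ) ^ (xs.length + 1) •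
      ((Kl S (x :: xs) a).d + evV (fun l => Kl S l a) (bdL (x :: xs))) +
      ((-1 : ℝ) ^ xs.length * J S a (x :: xs)) • 1 := by
  intro xs
  induction xs with
  | nil =>
    intro x hx
    have hxS : x ∈ S := hx x List.mem_cons_self
    rw [bdL_cons, bdL_nil, map_zero, sub_zero, evV_single, Kl_cons, Kl_nil, Kl_nil, Ky_d hxS,
      Kl_cons, Kl_nil, J_cons, Kl_nil]
    simp only [List.length_nil, zero_add, pow_one, pow_zero, one_mul, neg_smul, one_smul]
    abel
  | cons x' xs ih =>
    intro x hx
    have hxS : x ∈ S := hx x List.mem_cons_self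
    have h1 := ih x' fun z hz => hx z (List.mem_cons_of_mem _ hz)
    rw [Kl_cons, h1, map_add, map_smul, map_add, map_smul, Ky_one, smul_zero, add_zero,
      Ky_d hxS, ← evV_cons (F := fun l => Kl S l a) (x := x) (T := Ky S x) (fun l => rfl),
      bdL_cons x (x' :: xs), map_sub, evV_single, one_smul, J_cons, ← Kl_cons]
    have h2 : (-1 : ℝ) ^ ((x' :: xs).length + 1) = -(-1) ^ (xs.length + 1) := by
      rw [List.length_cons, pow_succ]
      ring
    have h3 : (-1 : ℝ) ^ (x' :: xs).length = (-1) ^ (xs.length + 1) := by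
      rw [List.length_cons]
    rw [h2, h3]
    module

theorem ev_eq_evV (f : List X → ℝ) (c : Ch ℝ X) : ev f c = evV f c := by
  have := lin_ext_apply (f := ev f) (g := evV f) (fun l => by
    rw [ev_single, evV_single, smul_eq_mul]) c
  exact this

theorem J_d {S : Set X} (a : Form (dif (full S))) {l : List X} (hl : ∀ z ∈ l, z ∈ S) {n : ℕ}
    (hn : l.length = n + 2) : J S a.d l = (-1) ^ n * dl (J S a) l := by
  obtain ⟨x, l, rfl⟩ : ∃ x l', l = x :: l' := by
    cases l with
    | nil => simp at hn
    | cons x l => exact ⟨x, l, rfl⟩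
  obtain ⟨x', xs, rfl⟩ : ∃ x' l', l = x' :: l' := by
    cases l with
    | nil => simp at hn
    | cons x l => exact ⟨x, l, rfl⟩
  have hn' : xs.length = n := by simpa using hn
  have hxS : x ∈ S := hl x List.mem_cons_self
  rw [J_cons, Kl_d a xs x' fun z hz => hl z (List.mem_cons_of_mem _ hz), pv_add, pv_smul, pv_add,
    pv_d, zero_add, pv_smul, pv_one (dirac_plot hxS 0), mul_one, dl, bdL_cons x (x' :: xs),
    map_sub, ev_single, one_mul, hn']
  have h1 : ev (J S a) (cons x (bdL (x' :: xs))) =
      pv (evV (fun l => Kl S l a) (bdL (x' :: xs))) (Finsupp.single x 1) := by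
    have h0 : (ev (J S a)).comp (cons x) =
        (pvL (Finsupp.single x 1)).comp (evV fun l => Kl S l a) := Finsupp.lhom_ext fun l r => by
      rw [LinearMap.comp_apply, cons_single, ev_single, LinearMap.comp_apply, evV_single,
        map_smul]
      rfl
    exact DFunLike.congr_fun h0 (bdL (x' :: xs))
  rw [h1, pow_succ]
  ring

/-! ### naturality -/

theorem Ky_nat {S : Set X} {T : Set Y} {f : X → Y} {φ : (X →₀ ℝ) → (Y →₀ ℝ)}
    (hφ : ∀ μ, φ μ = push f μ) (h : (dif (full S)).Map (dif (full T)) φ) {y : X} (hy : y ∈ S)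
    (hy' : f y ∈ T) (a : Form (dif (full T))) :
    Ky S y (Form.pull φ h a) = Form.pull φ h (Ky T (f y) a) := by
  rw [Ky_apply hy, Ky_apply hy', ← H584.K_nat]
  congr 1
  have h1 : ((dif (full S)).prod (Dif.lin ℝ)).Map (dif (full T)) (fun p => φ (cone y p)) :=
    h.comp (map_cone (full_ins hy))
  rw [H584.pull_pull (map_cone (full_ins hy)) h h1 (fun _ => rfl),
    H584.pull_pull (H584.map_cyl h) (map_cone (full_ins hy')) h1 (fun p => by
      obtain ⟨μ, s⟩ := p
      rw [hφ, hφ, push_cone])]

theorem Kl_nat {S : Set X} {T : Set Y} {f : X → Y} {φ : (X →₀ ℝ) → (Y →₀ ℝ)}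
    (hφ : ∀ μ, φ μ = push f μ) (h : (dif (full S)).Map (dif (full T)) φ)
    (hf : ∀ x ∈ S, f x ∈ T) (a : Form (dif (full T))) : ∀ l : List X, (∀ x ∈ l, x ∈ S) →
    Kl S l (Form.pull φ h a) = Form.pull φ h (Kl T (l.map f) a) := by
  intro l
  induction l with
  | nil => intro _; rfl
  | cons x xs ih =>
    intro hl
    have hx : x ∈ S := hl x List.mem_cons_self
    rw [Kl_cons, ih fun z hz => hl z (List.mem_cons_of_mem _ hz), Ky_nat hφ h hx (hf x hx),
      List.map_cons, Kl_cons]

theorem J_nat {S : Set X} {T : Set Y} {f : X → Y} {φ : (X →₀ ℝ) → (Y →₀ ℝ)}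
    (hφ : ∀ μ, φ μ = push f μ) (h : (dif (full S)).Map (dif (full T)) φ)
    (hf : ∀ x ∈ S, f x ∈ T) (a : Form (dif (full T))) {l : List X} (hl : ∀ x ∈ l, x ∈ S) :
    J S (Form.pull φ h a) l = J T a (l.map f) := by
  cases l with
  | nil => rfl
  | cons x xs =>
    have hx : x ∈ S := hl x List.mem_cons_self
    rw [J_cons, Kl_nat hφ h hf a xs fun z hz => hl z (List.mem_cons_of_mem _ hz),
      pv_pull h _ (dirac_plot hx 0), List.map_cons, J_cons, hφ, push_dirac]

theorem push_id (μ : X →₀ ℝ) : push id μ = μ := Finsupp.mapDomain_id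

/-! ### integration on a complex -/

/-- the forms on the complex `C` -/
abbrev Fo (C : Cx X) : Type 1 := Form (dif C)

theorem map_le {C C' : Cx X} (h : ∀ F, C.mem F → C'.mem F) : (dif C).Map (dif C') id :=
  fun hu => At_mono h hu

/-- restriction to a subcomplex -/
noncomputable def res {C C' : Cx X} (h : ∀ F, C.mem F → C'.mem F) (a : Form (dif C')) :
    Form (dif C) := Form.pull id (map_le h) a

/-- the signs `(-1)^(q (q - 1) / 2)`, `q + 1` the length of the list -/
noncomputable def sgn : ℕ → ℝ
  | 0 => 1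
  | 1 => 1
  | n + 2 => (-1) ^ n * sgn (n + 1)

theorem sgn_mul_self : ∀ n, sgn n * sgn n = 1
  | 0 => by simp [sgn]
  | 1 => by simp [sgn]
  | n + 2 => by
    have := sgn_mul_self (n + 1)
    have h1 : ((-1 : ℝ) ^ n) * (-1) ^ n = 1 := by
      rw [← mul_pow]; simp
    calc sgn (n + 2) * sgn (n + 2) = ((-1 : ℝ) ^ n * (-1) ^ n) * (sgn (n + 1) * sgn (n + 1)) := by
          rw [sgn]; ring
      _ = 1 := by rw [h1, this, one_mul]

theorem full_le {C : Cx X} {G : Finset X} (hG : C.mem G) (F : Finset X)
    (hF : (full (G : Set X)).mem F) : C.mem F := C.sub (fun x hx => hF x hx) hG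

open Classical in
/-- integration of forms on `C` over the simplices -/
noncomputable def Int (C : Cx X) (a : Form (dif C)) (l : List X) : ℝ :=
  if h : C.mem l.toFinset then
    sgn l.length * J (l.toFinset : Set X) (res (full_le h) a) l
  else 0

theorem Int_eq {C : Cx X} (a : Form (dif C)) {G : Finset X} (hG : C.mem G) {l : List X}
    (hl : ∀ x ∈ l, x ∈ G) :
    Int C a l = sgn l.length * J (G : Set X) (res (full_le hG) a) l := by
  classical
  have h1 : C.mem l.toFinset := C.sub (fun x hx => hl x (List.mem_toFinset.1 hx)) hG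
  have h0 : Int C a l = sgn l.length * J (l.toFinset : Set X) (res (full_le h1) a) l := by
    unfold Int
    have h1' : C.mem (@List.toFinset X (fun a b => Classical.propDecidable (a = b)) l) := by
      convert h1
    rw [dif_pos h1']
  rw [h0]
  congr 1
  have h2 : ∀ F, (full (l.toFinset : Set X)).mem F → (full (G : Set X)).mem F :=
    fun F hF x hx => hl x (List.mem_toFinset.1 (hF x hx))
  have h3 : res (full_le h1) a = Form.pull id (map_le h2) (res (full_le hG) a) :=
    (H584.pull_pull (map_le h2) (map_le (full_le hG)) (map_le (full_le h1)) (fun _ => rfl) a).symm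
  rw [h3, J_nat (f := id) (φ := id) (fun μ => (push_id μ).symm) (map_le h2)
    (fun x hx => hl x (List.mem_toFinset.1 hx)) _ (fun x hx => List.mem_toFinset.2 hx),
    List.map_id]

theorem Int_of_not {C : Cx X} (a : Form (dif C)) {l : List X}
    (hl : ∀ G : Finset X, (∀ x ∈ l, x ∈ G) → ¬ C.mem G) : Int C a l = 0 := by
  classical
  unfold Int
  exact dif_neg (hl _ fun x hx => List.mem_toFinset.2 hx)

theorem Int_add (C : Cx X) (a b : Form (dif C)) (l : List X) :
    Int C (a + b) l = Int C a l + Int C b l := by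
  classical
  by_cases h : C.mem l.toFinset
  · have hl : ∀ x ∈ l, x ∈ l.toFinset := fun x hx => List.mem_toFinset.2 hx
    rw [Int_eq _ h hl, Int_eq _ h hl, Int_eq _ h hl, res, pullAdd, ← mul_add]
    congr 1
    cases l with
    | nil => simp [J]
    | cons x xs => rw [J_cons, map_add, pv_add]; rfl
  · have hl : ∀ G : Finset X, (∀ x ∈ l, x ∈ G) → ¬ C.mem G := fun G hG hC =>
      h (C.sub (fun x hx => hG x (List.mem_toFinset.1 hx)) hC)
    rw [Int_of_not _ hl, Int_of_not _ hl, Int_of_not _ hl, add_zero]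

theorem Int_smul (C : Cx X) (c : ℝ) (a : Form (dif C)) (l : List X) :
    Int C (c • a) l = c * Int C a l := by
  classical
  by_cases h : C.mem l.toFinset
  · have hl : ∀ x ∈ l, x ∈ l.toFinset := fun x hx => List.mem_toFinset.2 hx
    rw [Int_eq _ h hl, Int_eq _ h hl, res, pullS, mul_left_comm]
    congr 1
    cases l with
    | nil => simp [J]
    | cons x xs => rw [J_cons, map_smul, pv_smul]; rfl
  · have hl : ∀ G : Finset X, (∀ x ∈ l, x ∈ G) → ¬ C.mem G := fun G hG hC =>
      h (C.sub (fun x hx => hG x (List.mem_toFinset.1 hx)) hC)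
    rw [Int_of_not _ hl, Int_of_not _ hl, mul_zero]

theorem res_d {C C' : Cx X} (h : ∀ F, C.mem F → C'.mem F) (a : Form (dif C')) :
    res h a.d = (res h a).d := Form.pull_d _ _ _

/-- **Stokes**: integration is a chain map. -/
theorem Int_d (C : Cx X) (a : Form (dif C)) {G : Finset X} (hG : C.mem G) {l : List X}
    (hl : ∀ x ∈ l, x ∈ G) : Int C a.d l = dl (Int C a) l := by
  rw [Int_eq a.d hG hl, res_d]
  rcases Nat.lt_or_ge l.length 2 with h | h
  · match l, h, hl with
    | [], _, _ => rw [dl, bdL_nil, map_zero]; simp [J]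
    | [x], _, hl =>
      rw [dl, bdL_cons, bdL_nil, map_zero, sub_zero, ev_single, one_mul, J_cons, Kl_nil, pv_d,
        mul_zero]
      rw [Int_eq a hG (l := []) (fun x hx => by simp at hx)]
      simp [J]
  · obtain ⟨n, hn⟩ : ∃ n, l.length = n + 2 := ⟨l.length - 2, by omega⟩
    rw [J_d _ hl hn, hn]
    have h1 : dl (Int C a) l = dl (fun l' => sgn (n + 1) * J (G : Set X) (res (full_le hG) a) l')
        l := by
      refine N929.dl_congr fun l' h1 h2 => ?_
      have h3 : l'.length = n + 1 := by omega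
      rw [Int_eq a hG (fun x hx => hl x (h2 x hx)), h3]
    have h2 : dl (fun l' => sgn (n + 1) * J (G : Set X) (res (full_le hG) a) l') l =
        sgn (n + 1) * dl (J (G : Set X) (res (full_le hG) a)) l := by
      rw [dl, ev_smul_fun]
      rfl
    rw [h1, h2, sgn]
    have h4 : ((-1 : ℝ) ^ n) * (-1) ^ n = 1 := by
      rw [← mul_pow]; simp
    linear_combination (sgn (n + 1) * dl (J (G : Set X) (res (full_le hG) a)) l) * h4

/-- integration is natural -/
theorem Int_nat {C : Cx X} {C' : Cx Y} {f : X → Y} {φ : (X →₀ ℝ) → (Y →₀ ℝ)}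
    (hφ : ∀ μ, φ μ = push f μ) (h : (dif C).Map (dif C') φ) (a : Form (dif C'))
    {G : Finset X} {G' : Finset Y} (hG : C.mem G) (hG' : C'.mem G') (hf : ∀ x ∈ G, f x ∈ G')
    {l : List X} (hl : ∀ x ∈ l, x ∈ G) : Int C (Form.pull φ h a) l = Int C' a (l.map f) := by
  have hl' : ∀ y ∈ l.map f, y ∈ G' := fun y hy => by
    obtain ⟨x, hx, rfl⟩ := List.mem_map.1 hy
    exact hf x (hl x hx)
  rw [Int_eq _ hG hl, Int_eq _ hG' hl', List.length_map]
  congr 1
  obtain rfl : φ = push f := funext hφ
  have h1 : (dif (full (G : Set X))).Map (dif (full (G' : Set Y))) (push f) :=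
    map_push (C := full (G : Set X)) (C' := full (G' : Set Y))
      fun F hF => ⟨G', fun y hy => hy, fun x hx => hf x (hF x hx)⟩
  have h2 : (dif (full (G : Set X))).Map (dif C') (push f) :=
    h.comp (map_le (full_le hG))
  have h3 : res (full_le hG) (Form.pull (push f) h a) =
      Form.pull (push f) h1 (res (full_le hG') a) := by
    rw [res, res, H584.pull_pull (map_le (full_le hG)) h h2 (fun _ => rfl),
      H584.pull_pull h1 (map_le (full_le hG')) h2 (fun _ => rfl)]
  rw [h3, J_nat hφ h1 (fun x hx => hf x hx) _ hl]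

end Vale.Agent.P216.V670
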