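import Vale.Agent.P216.V670.Int
import Vale.Agent.P216.V1.Defs

/-!
# Integration of the forms on the Vietoris-Rips spaces: a natural chain map to list cochains
-/

set_option linter.unusedSectionVars false
set_option linter.unusedVariables false

open Set Filter Topology
open scoped ContDiff

namespace Vale.Agent.P216.V670

open Vale.Agent.P231.Fm V1

variable {E E' : Type} [PseudoMetricSpace E] [PseudoMetricSpace E']

/-- the Vietoris-Rips complex -/
def vr (X : Set E) (ε : ℝ) : Cx E where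
  mem F := SmF X ε F
  sub h hG := ⟨fun x hx => hG.1 x (h hx), fun x hx y hy => hG.2 x (h hx) y (h hy)⟩

theorem map_vr (X : Set E) (ε : ℝ) : (dif (vr X ε)).Map (DM X ε) id := by
  rintro V _ _ _ u s ⟨F, hF, h1, h2⟩
  refine ⟨F, hF, ?_, h1.mono fun y hy => hy.2, fun x => At_coord ⟨F, hF, h1, h2⟩ x⟩
  filter_upwards [h1] with y hy x hx
  by_contra h
  exact hx (hy.1 (Finsupp.mem_support_iff.2 h))

theorem map_DM (X : Set E) (ε : ℝ) : (DM X ε).Map (dif (vr X ε)) id := by
  rintro V _ _ _ u s ⟨F, hF⟩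
  refine ⟨F, hF.smF, ?_, fun x _ => hF.sm x⟩
  filter_upwards [hF.out, hF.sum] with y h1 h2
  exact ⟨fun x hx => by
    by_contra h
    exact Finsupp.mem_support_iff.1 hx (h1 x h), h2⟩

/-- **integration over the simplices**: `intM a (x₀, …, x_q)` is the integral of `a` over the
simplex with these vertices -/
noncomputable def intM (X : Set E) (ε : ℝ) (a : Form (DM X ε)) (l : List E) : ℝ :=
  Int (vr X ε) (Form.pull id (map_vr X ε) a) l

theorem smF_toFinset {X : Set E} {ε : ℝ} {l : List E} (hl : PS.SmL X ε l) :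
    ∃ G, SmF X ε G ∧ ∀ x ∈ l, x ∈ G := by
  classical
  exact ⟨l.toFinset, ⟨fun x hx => hl.1 x (List.mem_toFinset.1 hx), fun x hx y hy =>
    hl.2 x (List.mem_toFinset.1 hx) y (List.mem_toFinset.1 hy)⟩, fun x hx => List.mem_toFinset.2 hx⟩

theorem intM_add (X : Set E) (ε : ℝ) (a b : Form (DM X ε)) (l : List E) :
    intM X ε (a + b) l = intM X ε a l + intM X ε b l := by
  rw [intM, pullAdd, Int_add]; rfl

theorem intM_smul (X : Set E) (ε : ℝ) (c : ℝ) (a : Form (DM X ε)) (l : List E) :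
    intM X ε (c • a) l = c * intM X ε a l := by
  rw [intM, pullS, Int_smul]; rfl

/-- integration as a linear map -/
noncomputable def intL (X : Set E) (ε : ℝ) : Form (DM X ε) →ₗ[ℝ] (List E → ℝ) where
  toFun a := intM X ε a
  map_add' a b := funext fun l => intM_add X ε a b l
  map_smul' c a := funext fun l => intM_smul X ε c a l

/-- **Stokes** -/
theorem intM_d {X : Set E} {ε : ℝ} (a : Form (DM X ε)) {l : List E} (hl : PS.SmL X ε l) :
    intM X ε a.d l = Sl.dl (intM X ε a) l := by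
  obtain ⟨G, hG, h⟩ := smF_toFinset hl
  rw [intM, Form.pull_d]
  exact Int_d (vr X ε) _ (G := G) hG h

/-- naturality under push-forward along a map of small sets to small sets -/
theorem intM_push {X : Set E} {Y : Set E'} {ε ε' : ℝ} {f : E → E'}
    {φ : (E →₀ ℝ) → (E' →₀ ℝ)} (hφ : ∀ μ, φ μ = μ.mapDomain f)
    (h : (DM X ε).Map (DM Y ε') φ) (hf : ∀ F, SmF X ε F → ∃ G, SmF Y ε' G ∧ ∀ x ∈ F, f x ∈ G)
    (a : Form (DM Y ε')) {l : List E} (hl : PS.SmL X ε l) :
    intM X ε (Form.pull φ h a) l = intM Y ε' a (l.map f) := by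
  obtain ⟨G, hG, h1⟩ := smF_toFinset hl
  obtain ⟨G', hG', h2⟩ := hf G hG
  have h3 : (dif (vr X ε)).Map (dif (vr Y ε')) φ := (map_DM Y ε').comp (h.comp (map_vr X ε))
  have h4 := Int_nat hφ h3 (Form.pull id (map_vr Y ε') a) (G := G) (G' := G') hG hG' h2 h1
  rw [intM, intM, ← h4]
  congr 1
  have h5 : (dif (vr X ε)).Map (DM Y ε') φ := h.comp (map_vr X ε)
  rw [P231.H584.pull_pull (map_vr X ε) h h5 (fun _ => rfl),
    P231.H584.pull_pull h3 (map_vr Y ε') h5 (fun _ => rfl)]

/-- naturality under restriction -/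
theorem intM_res {X Y : Set E} {ε ε' : ℝ} (hX : X ⊆ Y) (hε : ε ≤ ε') (a : Form (DM Y ε'))
    {l : List E} (hl : PS.SmL X ε l) : intM X ε (V1.res hX hε a) l = intM Y ε' a l := by
  have h := intM_push (f := id) (φ := id) (fun μ => (push_id μ).symm) (map_monoM hX hε)
    (fun F hF => ⟨F, hF.mono hX hε, fun x hx => hx⟩) a hl
  rw [List.map_id] at h
  exact h

/-- integration of a closed form is a cocycle -/
theorem intM_closed {X : Set E} {ε : ℝ} {a : Form (DM X ε)} (ha : a.d = 0) {l : List E}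
    (hl : PS.SmL X ε l) : Sl.dl (intM X ε a) l = 0 := by
  rw [← intM_d a hl, ha]
  have : (0 : Form (DM X ε)) = (0 : ℝ) • 0 := (smul_zero _).symm
  rw [this, intM_smul, zero_mul]

end Vale.Agent.P216.V670
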