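import Mathlib

/-!
# A partial homotopy for a map of complexes over a field
-/

open Module

namespace Vale.Agent.P216.V670

variable {k : Type*} [Field k]
variable {C₀ C₁ C₂ D₀ D₁ D₂ : Type*}
  [AddCommGroup C₀] [Module k C₀] [AddCommGroup C₁] [Module k C₁] [AddCommGroup C₂] [Module k C₂]
  [AddCommGroup D₁] [Module k D₁] [AddCommGroup D₂] [Module k D₂]

/-- splitting off `W ≤ Z` -/
theorem exists_split (W Z : Submodule k C₁) (hWZ : W ≤ Z) :
    ∃ (H : Submodule k C₁) (PH : C₁ →ₗ[k] H) (PZ : C₁ →ₗ[k] Z), H ≤ Z ∧ Disjoint W H ∧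
      (∀ x ∈ W, PH x = 0) ∧ (∀ x (hx : x ∈ Z), PZ x = ⟨x, hx⟩) ∧
      (∀ x, (PZ x : C₁) - (PH x : C₁) ∈ W) := by
  obtain ⟨H', hH'⟩ := Submodule.exists_isCompl (W.comap Z.subtype)
  obtain ⟨K, hK⟩ := Submodule.exists_isCompl Z
  have hHZ : H'.map Z.subtype ≤ Z := by
    rintro x ⟨y, _, rfl⟩
    exact y.2
  have hWH : Disjoint W (H'.map Z.subtype) := by
    rw [Submodule.disjoint_def]
    rintro x hx ⟨y, hy, rfl⟩
    have h1 : y ∈ W.comap Z.subtype := hx
    have h2 := (Submodule.disjoint_def.1 hH'.disjoint) y h1 hy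
    rw [h2]; rfl
  have hsum : ∀ z ∈ Z, ∃ w ∈ W, ∃ h ∈ H'.map Z.subtype, w + h = z := by
    intro z hz
    have h1 : (⟨z, hz⟩ : Z) ∈ W.comap Z.subtype ⊔ H' := by
      rw [hH'.sup_eq_top]; trivial
    obtain ⟨a, ha, b, hb, hab⟩ := Submodule.mem_sup.1 h1
    exact ⟨a, ha, b, ⟨b, hb, rfl⟩, congrArg Subtype.val hab⟩
  generalize H'.map Z.subtype = H at hHZ hWH hsum
  have hHc : IsCompl H (W ⊔ K) := by
    constructor
    · rw [Submodule.disjoint_def]
      intro x hx hx'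
      obtain ⟨w, hw, y, hy, rfl⟩ := Submodule.mem_sup.1 hx'
      have h1 : y ∈ Z := by
        have := Z.sub_mem (hHZ hx) (hWZ hw)
        simpa using this
      have h2 : y = 0 := (Submodule.disjoint_def.1 hK.disjoint) y h1 hy
      rw [h2, add_zero] at hx ⊢
      exact (Submodule.disjoint_def.1 hWH) w hw hx
    · rw [codisjoint_iff, eq_top_iff]
      intro x _
      have h1 : x ∈ Z ⊔ K := by rw [hK.sup_eq_top]; trivial
      obtain ⟨z, hz, y, hy, rfl⟩ := Submodule.mem_sup.1 h1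
      obtain ⟨w, hw, h, hh, rfl⟩ := hsum z hz
      have : w + h + y = h + (w + y) := by abel
      rw [this]
      exact Submodule.add_mem_sup hh (Submodule.add_mem_sup hw hy)
  have hPHH : ∀ x (hx : x ∈ H), H.projectionOnto (W ⊔ K) hHc x = ⟨x, hx⟩ := fun x hx =>
    Submodule.projectionOnto_apply_left hHc ⟨x, hx⟩
  have hPH0 : ∀ x, x ∈ W ⊔ K → H.projectionOnto (W ⊔ K) hHc x = 0 := fun x hx =>
    (Submodule.projectionOnto_apply_eq_zero_iff hHc).2 hx
  have hPZZ : ∀ x (hx : x ∈ Z), Z.projectionOnto K hK x = ⟨x, hx⟩ := fun x hx =>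
    Submodule.projectionOnto_apply_left hK ⟨x, hx⟩
  have hPZK : ∀ x, x - (Z.projectionOnto K hK x : C₁) ∈ K := fun x => by
    rw [← Submodule.projectionOnto_apply_eq_zero_iff hK, map_sub,
      hPZZ _ (Z.projectionOnto K hK x).2, sub_self]
  refine ⟨H, H.projectionOnto (W ⊔ K) hHc, Z.projectionOnto K hK, hHZ, hWH,
    fun x hx => hPH0 x (Submodule.mem_sup_left hx), hPZZ, fun x => ?_⟩
  obtain ⟨w, hw, h, hh, hwh⟩ := hsum _ (Z.projectionOnto K hK x).2
  have h1 : H.projectionOnto (W ⊔ K) hHc x = ⟨h, hh⟩ := by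
    have h2 : x = h + (w + (x - (Z.projectionOnto K hK x : C₁))) := by rw [← hwh]; abel
    have h3 := congrArg (H.projectionOnto (W ⊔ K) hHc) h2
    rw [map_add, hPHH h hh, hPH0 _ (Submodule.add_mem_sup hw (hPZK x)), add_zero] at h3
    exact h3
  rw [h1, ← hwh]
  simpa using hw

/-- a linear map vanishing on the kernel of `d` factors through `d` -/
theorem exists_factor (d : C₁ →ₗ[k] C₀) (g : C₁ →ₗ[k] D₁) (h : LinearMap.ker d ≤ LinearMap.ker g) :
    ∃ s : C₀ →ₗ[k] D₁, ∀ x, s (d x) = g x := by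
  obtain ⟨s, hs⟩ := LinearMap.exists_extend (p := LinearMap.range d)
    (((LinearMap.ker d).liftQ g h) ∘ₗ
      (d.quotKerEquivRange.symm : LinearMap.range d →ₗ[k] (C₁ ⧸ LinearMap.ker d)))
  refine ⟨s, fun x => ?_⟩
  have h1 := DFunLike.congr_fun hs (⟨d x, LinearMap.mem_range_self _ _⟩ : LinearMap.range d)
  have h2 : d.quotKerEquivRange.symm ⟨d x, LinearMap.mem_range_self _ _⟩ =
      (LinearMap.ker d).mkQ x := by
    rw [LinearEquiv.symm_apply_eq]
    rfl
  have h3 : s (d x) = ((LinearMap.ker d).liftQ g h) (d.quotKerEquivRange.symm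
    ⟨d x, LinearMap.mem_range_self _ _⟩) := h1
  rw [h3, h2]
  exact (LinearMap.ker d).liftQ_apply g x

/-- a linear map into the range of `e` lifts -/
theorem exists_lift (e : D₂ →ₗ[k] D₁) (g : C₁ →ₗ[k] D₁) (h : ∀ x, g x ∈ LinearMap.range e) :
    ∃ s : C₁ →ₗ[k] D₂, ∀ x, e (s x) = g x := by
  obtain ⟨r, hr⟩ := e.rangeRestrict.exists_rightInverse_of_surjective
    (LinearMap.range_eq_top.2 e.surjective_rangeRestrict)
  refine ⟨r ∘ₗ g.codRestrict (LinearMap.range e) h, fun x => ?_⟩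
  have h1 := congrArg Subtype.val (DFunLike.congr_fun hr (g.codRestrict (LinearMap.range e) h x))
  exact h1

/-- **(LIN)**: a chain map in one degree is a sum of `v_a ⊗ z_a` (`z_a` cycles which are independent
modulo boundaries, `v_a` cocycles) and of a homotopy. -/
theorem lin_split (d₂ : C₂ →ₗ[k] C₁) (d₁ : C₁ →ₗ[k] C₀) (e₂ : D₂ →ₗ[k] D₁)
    (ι₂ : C₂ →ₗ[k] D₂) (ι₁ : C₁ →ₗ[k] D₁) (hι : ∀ c, e₂ (ι₂ c) = ι₁ (d₂ c))
    (hd : ∀ c, d₁ (d₂ c) = 0) :
    ∃ (A : Set C₁) (v : A → (C₁ →ₗ[k] k)) (s : C₀ →ₗ[k] D₁) (s' : C₁ →ₗ[k] D₂),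
      (∀ a : A, d₁ a = 0) ∧ (∀ a c, v a (d₂ c) = 0) ∧ (∀ c, {a | v a c ≠ 0}.Finite) ∧
      (∀ c, ι₁ c = (∑ᶠ a, v a c • ι₁ (a : C₁)) + s (d₁ c) + e₂ (s' c)) ∧
      (∀ f : A →₀ k, (f.sum fun a r => r • ι₁ (a : C₁)) ∈ LinearMap.range e₂ → f = 0) := by
  classical
  obtain ⟨H, PH, PZ, hHZ, hWH, hPH0, hPZZ, hPHW⟩ := exists_split
    (LinearMap.ker d₁ ⊓ (LinearMap.range e₂).comap ι₁) (LinearMap.ker d₁) inf_le_left
  obtain ⟨s', hs'⟩ := exists_lift e₂ (ι₁ ∘ₗ ((LinearMap.ker d₁).subtype ∘ₗ PZ - H.subtype ∘ₗ PH))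
    (fun x => (hPHW x).2)
  obtain ⟨s, hs⟩ := exists_factor d₁ (ι₁ ∘ₗ (LinearMap.id - (LinearMap.ker d₁).subtype ∘ₗ PZ))
    (fun x hx => by
      rw [LinearMap.mem_ker]
      change ι₁ (x - (PZ x : C₁)) = 0
      rw [hPZZ x hx, sub_self, map_zero])
  -- a basis of `H`, as a set of elements of `C₁`
  obtain ⟨A, hAH, hAspan, hAli⟩ := exists_linearIndependent k (H : Set C₁)
  have hAspan' : Submodule.span k A = H := by rw [hAspan, Submodule.span_eq]
  let b : Basis A k (Submodule.span k A) :=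
    (Basis.span (v := ((↑) : A → C₁)) hAli).map (LinearEquiv.ofEq _ _ (by
      rw [Subtype.range_coe]))
  have hb : ∀ a, (b a : C₁) = a := fun a => by
    rw [Basis.map_apply, LinearEquiv.coe_ofEq_apply, Basis.span_apply]
  clear_value b
  subst hAspan'
  refine ⟨A, fun a => b.coord a ∘ₗ PH, s, s', fun a => hHZ (hAH a.2), ?_, ?_, ?_, ?_⟩
  · intro a c
    change b.coord a (PH (d₂ c)) = 0
    rw [hPH0 _ ⟨hd c, ⟨ι₂ c, hι c⟩⟩, map_zero]
  · intro c
    refine (b.repr (PH c)).hasFiniteSupport.subset fun a ha => ?_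
    exact ha
  · intro c
    have h1 : (∑ᶠ a, (b.coord a ∘ₗ PH) c • ι₁ (a : C₁)) = ι₁ (PH c : C₁) := by
      have h2 : (PH c : C₁) = ∑ a ∈ (b.repr (PH c)).support, (b.repr (PH c)) a • (a : C₁) := by
        conv_lhs => rw [← b.linearCombination_repr (PH c), Finsupp.linearCombination_apply]
        rw [Finsupp.sum, Submodule.coe_sum]
        exact Finset.sum_congr rfl fun a _ => by rw [Submodule.coe_smul, hb]
      rw [h2, map_sum]
      rw [finsum_eq_sum_of_support_subset (s := (b.repr (PH c)).support)]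
      · refine Finset.sum_congr rfl fun a _ => ?_
        rw [map_smul]
        rfl
      · intro a ha
        simp only [Function.mem_support, ne_eq] at ha
        simp only [Finset.mem_coe, Finsupp.mem_support_iff, ne_eq]
        intro h3
        refine ha ?_
        change (b.repr (PH c) a) • ι₁ (a : C₁) = 0
        rw [h3, zero_smul]
    rw [h1, hs, hs']
    change ι₁ c = ι₁ (PH c : C₁) + ι₁ (c - (PZ c : C₁)) + ι₁ ((PZ c : C₁) - (PH c : C₁))
    rw [← map_add, ← map_add]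
    congr 1
    abel
  · intro f hf
    have h1 : (f.sum fun a r => r • ι₁ (a : C₁)) = ι₁ ((b.repr.symm f : _) : C₁) := by
      rw [Basis.repr_symm_apply, Finsupp.linearCombination_apply, Finsupp.sum, Finsupp.sum,
        Submodule.coe_sum, map_sum]
      exact Finset.sum_congr rfl fun a _ => by rw [Submodule.coe_smul, hb, map_smul]
    rw [h1] at hf
    have h3 := (Submodule.disjoint_def.1 hWH) _ ⟨hHZ (b.repr.symm f).2, hf⟩ (b.repr.symm f).2
    have h4 : b.repr.symm f = 0 := Subtype.ext h3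
    exact (LinearEquiv.map_eq_zero_iff _).1 h4

end Vale.Agent.P216.V670
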